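import Vale.Agent.P292.Bdl.B1
import Vale.Agent.P292.K.Ext

/-! # Tensor products of domains over the complex numbers -/

namespace Vale.Agent.P292

open TensorProduct

universe u v w

section tensor

variable {A : Type u} {F : Type v} [CommRing A] [Algebra ℂ A] [CommRing F] [Algebra ℂ F]

/-- evaluation of the first factor at a complex point. -/
noncomputable def evFst (q : A →ₐ[ℂ] ℂ) : A ⊗[ℂ] F →ₐ[ℂ] F :=
  Algebra.TensorProduct.lift ((Algebra.ofId ℂ F).comp q) (AlgHom.id ℂ F)
    (fun _ _ => Commute.all _ _)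

theorem evFst_tmul (q : A →ₐ[ℂ] ℂ) (a : A) (f : F) :
    evFst q (a ⊗ₜ[ℂ] f) = q a • f := by
  rw [evFst, Algebra.TensorProduct.lift_tmul, Algebra.smul_def]
  rfl

theorem evFst_eq {ι : Type w} (b : Module.Basis ι ℂ F) (q : A →ₐ[ℂ] ℂ) (x : A ⊗[ℂ] F) (i : ι) :
    b.repr (evFst q x) i = q ((Algebra.TensorProduct.basis A b).repr x i) := by
  induction x using TensorProduct.induction_on with
  | zero => simp
  | tmul a f =>
    rw [evFst_tmul, Algebra.TensorProduct.basis_repr_tmul, map_smul, Finsupp.smul_apply,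
      Finsupp.smul_apply, Finsupp.mapRange_apply, smul_eq_mul, smul_eq_mul, map_mul,
      AlgHom.commutes]
    rfl
  | add x y hx hy =>
    rw [map_add, map_add, map_add, Finsupp.add_apply, Finsupp.add_apply, map_add, hx, hy]

/-- an element of the tensor product is zero if it vanishes at all points of the first factor. -/
theorem exists_evFst_ne_zero [IsDomain A] [Algebra.FiniteType ℂ A] {x : A ⊗[ℂ] F} (hx : x ≠ 0) :
    ∃ g : A, g ≠ 0 ∧ ∀ q : A →ₐ[ℂ] ℂ, q g ≠ 0 → evFst q x ≠ 0 := by
  let b := Module.Basis.ofVectorSpace ℂ F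
  have h1 : (Algebra.TensorProduct.basis A b).repr x ≠ 0 := fun h => hx
    ((Algebra.TensorProduct.basis A b).repr.map_eq_zero_iff.1 h)
  obtain ⟨i, hi⟩ := Finsupp.ne_iff.1 h1
  refine ⟨_, hi, fun q hq h0 => hq ?_⟩
  rw [← evFst_eq, h0]
  simp

/-- the tensor product of a finitely generated complex domain and a complex domain is a
domain. -/
theorem isDomain_tensor [IsDomain A] [Algebra.FiniteType ℂ A] [IsDomain F] :
    IsDomain (A ⊗[ℂ] F) := by
  have : Nontrivial (A ⊗[ℂ] F) := by
    refine ⟨⟨1, 0, fun h => ?_⟩⟩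
    obtain ⟨q, -⟩ := exists_point_ne_zero (1 : A) one_ne_zero
    have h1 := congrArg (evFst q) h
    rw [map_one, map_zero] at h1
    exact one_ne_zero h1
  have : NoZeroDivisors (A ⊗[ℂ] F) := by
    refine ⟨fun {x y} hxy => ?_⟩
    by_contra hcon
    push Not at hcon
    obtain ⟨g, hg, hgx⟩ := exists_evFst_ne_zero hcon.1
    obtain ⟨h, hh, hhy⟩ := exists_evFst_ne_zero hcon.2
    obtain ⟨q, hq⟩ := exists_point_ne_zero (g * h) (mul_ne_zero hg hh)
    rw [map_mul] at hq
    have h1 := mul_ne_zero (hgx q (left_ne_zero_of_mul hq)) (hhy q (right_ne_zero_of_mul hq))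
    rw [← map_mul, hxy, map_zero] at h1
    exact h1 rfl
  exact NoZeroDivisors.to_isDomain _

/-- a pair of homomorphisms into a domain. -/
theorem map_injective {A' : Type*} {F' : Type*} [CommRing A'] [Algebra ℂ A'] [CommRing F']
    [Algebra ℂ F'] (f : A →ₐ[ℂ] A') (g : F →ₐ[ℂ] F') (hf : Function.Injective f)
    (hg : Function.Injective g) : Function.Injective (Algebra.TensorProduct.map f g) := by
  have h1 := TensorProduct.map_injective_of_flat_flat (f : A →ₗ[ℂ] A') (g : F →ₗ[ℂ] F') hf hg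
  exact h1

end tensor

end Vale.Agent.P292
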