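import Vale.Agent.P292.K.Ultra
import Vale.Agent.P292.K.DerExt
import Vale.Agent.P292.MM.Tensor

/-! # Generic ultrafilters on dense sets of closed points, and derivations of tensor products -/

namespace Vale.Agent.P292

open Filter TensorProduct

universe u v w

/-- The ultrafilter of a generic point in a dense set of closed points. -/
theorem mm_exists_ultrafilter (A : Type u) [CommRing A] [Algebra ℂ A] [IsDomain A]
    (T : Set (A →ₐ[ℂ] ℂ)) (hT : ∀ a : A, a ≠ 0 → ∃ s ∈ T, s a ≠ 0) :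
    ∃ U : Ultrafilter T, ∀ a : A, a ≠ 0 →
      ∀ᶠ s in (U : Filter T), s.1 a ≠ 0 := by
  classical
  let F : Filter T := Filter.generate {V | ∃ a : A, a ≠ 0 ∧ V = {s : T | s.1 a ≠ 0}}
  have hne : F.NeBot := by
    rw [Filter.generate_neBot_iff]
    intro t ht htf
    have key : ∀ t : Set (Set T), t.Finite →
        t ⊆ {V | ∃ a : A, a ≠ 0 ∧ V = {s : T | s.1 a ≠ 0}} →
        ∃ a : A, a ≠ 0 ∧ ∀ s : T, s.1 a ≠ 0 → s ∈ ⋂₀ t := by
      intro t htf
      induction t, htf using Set.Finite.induction_on with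
      | empty => intro _; exact ⟨1, one_ne_zero, fun s _ => by simp⟩
      | insert _ _ ih =>
        intro ht
        obtain ⟨a, ha, h1⟩ := ih fun x hx => ht (Set.mem_insert_of_mem _ hx)
        obtain ⟨b, hb, h2⟩ := ht (Set.mem_insert _ _)
        refine ⟨a * b, mul_ne_zero ha hb, fun s hs => ?_⟩
        rw [map_mul] at hs
        rw [Set.sInter_insert, h2]
        exact ⟨right_ne_zero_of_mul hs, h1 s (left_ne_zero_of_mul hs)⟩
    obtain ⟨a, ha, h1⟩ := key t htf ht
    obtain ⟨s, hsT, hs⟩ := hT a ha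
    exact ⟨⟨s, hsT⟩, h1 ⟨s, hsT⟩ hs⟩
  refine ⟨Ultrafilter.of F, fun a ha => ?_⟩
  exact Ultrafilter.of_le F (Filter.mem_generate_of_mem ⟨a, ha, rfl⟩)

/-- A derivation over the first factor extends to a tensor product, being zero on the second
factor, and further to the field. -/
theorem mm_exists_der_tensor {A : Type u} {B : Type v} [CommRing A] [Algebra ℂ A] [CommRing B]
    [Algebra ℂ B] {E : Type w} [Field E] [Algebra ℂ E] (i : A ⊗[ℂ] B →ₐ[ℂ] E)
    (hi : Function.Injective i) {δ : A →ₗ[ℂ] E}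
    (hδ : IsDer (i.comp Algebra.TensorProduct.includeLeft) δ) :
    ∃ D : Derivation ℂ E E, (∀ a, D (i (a ⊗ₜ[ℂ] 1)) = δ a) ∧ ∀ b, D (i (1 ⊗ₜ[ℂ] b)) = 0 := by
  have hδ' : ∀ r s, δ (r * s) = i (r ⊗ₜ[ℂ] 1) * δ s + i (s ⊗ₜ[ℂ] 1) * δ r := fun r s => hδ r s
  have h1 : δ 1 = 0 := by
    have := hδ' 1 1
    rw [mul_one, ← Algebra.TensorProduct.one_def, map_one i, one_mul] at this
    have h2 : δ 1 + 0 = δ 1 + δ 1 := by rw [add_zero]; exact this
    exact (add_left_cancel h2).symm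
  let f : A →ₗ[ℂ] B →ₗ[ℂ] E := LinearMap.mk₂ ℂ (fun a b => δ a * i (1 ⊗ₜ[ℂ] b))
    (fun a a' b => by rw [map_add, add_mul])
    (fun c a b => by rw [map_smul, Algebra.smul_mul_assoc])
    (fun a b b' => by rw [tmul_add, map_add, mul_add])
    (fun c a b => by rw [tmul_smul, map_smul, Algebra.mul_smul_comm])
  let Δ : A ⊗[ℂ] B →ₗ[ℂ] E := TensorProduct.lift f
  have hΔ : ∀ a b, Δ (a ⊗ₜ[ℂ] b) = δ a * i (1 ⊗ₜ[ℂ] b) := fun a b => TensorProduct.lift.tmul a b
  have hi2 : ∀ (a : A) (b : B), i (a ⊗ₜ[ℂ] b) = i (a ⊗ₜ[ℂ] 1) * i (1 ⊗ₜ[ℂ] b) := by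
    intro a b
    rw [← map_mul, Algebra.TensorProduct.tmul_mul_tmul, mul_one, one_mul]
  have hder : IsDer i Δ := by
    intro x y
    induction x using TensorProduct.induction_on with
    | zero => simp
    | add x x' hx hx' =>
      rw [add_mul, map_add, hx, hx', map_add, map_add]
      ring
    | tmul a b =>
      induction y using TensorProduct.induction_on with
      | zero => simp
      | add y y' hy hy' =>
        rw [mul_add, map_add, hy, hy', map_add, map_add]
        ring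
      | tmul a' b' =>
        rw [Algebra.TensorProduct.tmul_mul_tmul, hΔ, hΔ, hΔ, hδ', hi2 a b, hi2 a' b']
        have : i ((1 : A) ⊗ₜ[ℂ] (b * b')) = i (1 ⊗ₜ[ℂ] b) * i (1 ⊗ₜ[ℂ] b') := by
          rw [← map_mul, Algebra.TensorProduct.tmul_mul_tmul, mul_one]
        rw [this]
        ring
  obtain ⟨D, hD⟩ := exists_derivation_of_isDer hi hder
  have hD' : ∀ x, D (i x) = Δ x := fun x => LinearMap.congr_fun hD x
  refine ⟨D, fun a => ?_, fun b => ?_⟩
  · rw [hD', hΔ, ← Algebra.TensorProduct.one_def, map_one, mul_one]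
  · rw [hD', hΔ, h1, zero_mul]

end Vale.Agent.P292
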