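import Vale.Agent.P292.K.N3

/-! # Joint closed specialisation of two curves. -/

namespace Vale.Agent.P292

open MvPolynomial

universe u v

variable {R : Type u} [CommRing R] [Algebra ℂ R] {𝒜 : ℕ → Submodule ℂ R}
  {E : Type v} [Field E] [Algebra ℂ E]

/-- Every curve over an algebraically closed field `E` has a finite set of elements of `E` such
that it specialises to a closed curve by every complex point of every subalgebra containing this
set. -/
theorem pair_exists_finset [Algebra.FiniteType ℂ R] [IsAlgClosed E] {d : ℕ}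
    {φ : R →ₐ[ℂ] MvPolynomial (Fin 2) E} (hφ : IsCurve 𝒜 d φ) :
    ∃ S : Finset E, ∀ A₀ : Subalgebra ℂ E, (S : Set E) ⊆ A₀ → ∀ σ : A₀ →ₐ[ℂ] ℂ,
      ∃ ψ : R →ₐ[ℂ] MvPolynomial (Fin 2) ℂ, IsCurve 𝒜 d ψ ∧
        ∀ r m, ∃ h : coeff m (φ r) ∈ A₀, coeff m (ψ r) = σ ⟨coeff m (φ r), h⟩ := by
  classical
  obtain ⟨G, hG⟩ := Algebra.FiniteType.out (R := ℂ) (A := R)
  obtain ⟨N0, n0, c0, r0, k0, hk0, hr0, h0⟩ := hφ.exists_pow 0
  obtain ⟨N1, n1, c1, r1, k1, hk1, hr1, h1⟩ := hφ.exists_pow 1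
  set S : Finset E := G.biUnion (fun g => (φ g).coeffs) ∪
    (Finset.univ.biUnion fun j => (c0 j).coeffs) ∪
    (Finset.univ.biUnion fun j => (c1 j).coeffs) with hS
  refine ⟨S, fun A₀ hSA σ => ?_⟩
  set M : MvPolynomial (Fin 2) A₀ →ₐ[ℂ] MvPolynomial (Fin 2) E := mapAlgHom A₀.val with hMdef
  have hMapp : ∀ p, M p = map (algebraMap A₀ E) p := fun p => rfl
  have hM : Function.Injective M := map_injective _ Subtype.val_injective
  have hmem : ∀ p : MvPolynomial (Fin 2) E, (p.coeffs : Set E) ⊆ A₀ → ∃ q, M q = p := by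
    intro p hp
    have : p ∈ Set.range (MvPolynomial.map (algebraMap A₀ E)) := by
      rw [mem_range_map_iff_coeffs_subset]
      intro e he
      exact ⟨⟨e, hp he⟩, rfl⟩
    exact this
  have hrange : ∀ r, φ r ∈ M.range := by
    intro r
    have h2 : φ.range ≤ M.range := by
      rw [← Algebra.map_top, ← hG, AlgHom.map_adjoin, Algebra.adjoin_le_iff]
      rintro _ ⟨g, hg, rfl⟩
      obtain ⟨q, hq⟩ := hmem (φ g) (by
        refine subset_trans ?_ hSA
        rw [hS]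
        intro e he
        simp only [Finset.coe_union, Set.mem_union, Finset.mem_coe, Finset.mem_biUnion]
        exact Or.inl (Or.inl ⟨g, hg, he⟩))
      exact ⟨q, hq⟩
    exact h2 ⟨r, rfl⟩
  set e := AlgEquiv.ofInjective M hM with he
  set φ₀ : R →ₐ[ℂ] MvPolynomial (Fin 2) A₀ :=
    (e.symm : M.range →ₐ[ℂ] MvPolynomial (Fin 2) A₀).comp (φ.codRestrict M.range hrange) with hφ₀
  have hφ₀M : ∀ r, M (φ₀ r) = φ r := by
    intro r
    have : (e (φ₀ r) : MvPolynomial (Fin 2) E) = φ r := by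
      rw [hφ₀]
      simp
    rw [← this]
    rfl
  have hcf : ∀ r m, ((coeff m (φ₀ r) : A₀) : E) = coeff m (φ r) := by
    intro r m
    rw [← hφ₀M r, hMapp, coeff_map]
    rfl
  have hmap : ∀ r, ((mapAlgHom σ).comp φ₀) r = map (σ : A₀ →+* ℂ) (φ₀ r) := fun r => rfl
  refine ⟨(mapAlgHom σ).comp φ₀, ⟨?_, ?_⟩, ?_⟩
  · intro k r hr m hm
    have hm' : coeff m (φ₀ r) ≠ 0 := by
      intro h
      apply hm
      rw [hmap, coeff_map, h, map_zero]
    have h3 : coeff m (φ r) ≠ 0 := by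
      rw [← hφ₀M r, hMapp, coeff_map]
      intro h
      apply hm'
      exact Subtype.val_injective (h.trans (map_zero (algebraMap A₀ E)).symm)
    exact hφ.degree k r hr h3
  · intro x hx
    have key : ∀ (i : Fin 2) (N n : ℕ) (c : Fin n → MvPolynomial (Fin 2) E) (r : Fin n → R)
        (k : Fin n → ℕ), (∀ j, 0 < k j) → (∀ j, r j ∈ 𝒜 (k j)) →
        ∑ j, c j * φ (r j) = (X i : MvPolynomial (Fin 2) E) ^ N →
        (∀ j, ((c j).coeffs : Set E) ⊆ A₀) → x i ≠ 0 →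
        ∃ k, 0 < k ∧ ∃ r ∈ 𝒜 k, aeval x (((mapAlgHom σ).comp φ₀) r) ≠ 0 := by
      intro i N n c r k hk hr hsum hc hxi
      choose q hq using fun j => hmem (c j) (hc j)
      have h5 : ∑ j, q j * φ₀ (r j) = X i ^ N := by
        apply hM
        rw [map_sum, map_pow]
        have : M (X i) = X i := by rw [hMapp, map_X]
        rw [this, ← hsum]
        exact Finset.sum_congr rfl fun j _ => by rw [map_mul, hq, hφ₀M]
      by_contra hcon
      push Not at hcon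
      have h6 : aeval x ((mapAlgHom σ : MvPolynomial (Fin 2) A₀ →ₐ[ℂ] _)
          (∑ j, q j * φ₀ (r j))) = 0 := by
        rw [map_sum, map_sum]
        refine Finset.sum_eq_zero fun j _ => ?_
        rw [map_mul, map_mul]
        have := hcon (k j) (hk j) (r j) (hr j)
        change aeval x ((mapAlgHom σ : MvPolynomial (Fin 2) A₀ →ₐ[ℂ] _) (φ₀ (r j))) = 0 at this
        rw [this, mul_zero]
      rw [h5, map_pow, map_pow] at h6
      have h7 : (mapAlgHom σ : MvPolynomial (Fin 2) A₀ →ₐ[ℂ] _) (X i) = X i := by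
        change map (σ : A₀ →+* ℂ) (X i) = X i
        rw [map_X]
      rw [h7, aeval_X] at h6
      exact pow_ne_zero N hxi h6
    have hx' : x 0 ≠ 0 ∨ x 1 ≠ 0 := by
      by_contra h
      push Not at h
      apply hx
      funext i
      fin_cases i
      · exact h.1
      · exact h.2
    rcases hx' with h | h
    · refine key 0 N0 n0 c0 r0 k0 hk0 hr0 h0 (fun j => ?_) h
      refine subset_trans ?_ hSA
      rw [hS]
      intro e he
      simp only [Finset.coe_union, Set.mem_union, Finset.mem_coe, Finset.mem_biUnion]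
      exact Or.inl (Or.inr ⟨j, Finset.mem_univ _, he⟩)
    · refine key 1 N1 n1 c1 r1 k1 hk1 hr1 h1 (fun j => ?_) h
      refine subset_trans ?_ hSA
      rw [hS]
      intro e he
      simp only [Finset.coe_union, Set.mem_union, Finset.mem_coe, Finset.mem_biUnion]
      exact Or.inr ⟨j, Finset.mem_univ _, he⟩
  · intro r m
    refine ⟨by rw [← hcf r m]; exact (coeff m (φ₀ r)).2, ?_⟩
    rw [hmap, coeff_map]
    change σ _ = σ _
    congr 1
    exact Subtype.ext (hcf r m)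

/-- Joint closed specialisation of two curves; a given finite set of nonzero elements stays
nonzero. -/
theorem exists_closed_pair [Algebra.FiniteType ℂ R] [IsAlgClosed E] {d₁ d₂ : ℕ}
    {φ₁ φ₂ : R →ₐ[ℂ] MvPolynomial (Fin 2) E} (h1 : IsCurve 𝒜 d₁ φ₁) (h2 : IsCurve 𝒜 d₂ φ₂)
    (F : Finset E) (hF : ∀ e ∈ F, e ≠ 0) :
    ∃ (A₀ : Subalgebra ℂ E) (σ : A₀ →ₐ[ℂ] ℂ) (ψ₁ ψ₂ : R →ₐ[ℂ] MvPolynomial (Fin 2) ℂ),
      IsCurve 𝒜 d₁ ψ₁ ∧ IsCurve 𝒜 d₂ ψ₂ ∧
      (∀ r m, ∃ h : coeff m (φ₁ r) ∈ A₀, coeff m (ψ₁ r) = σ ⟨coeff m (φ₁ r), h⟩) ∧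
      (∀ r m, ∃ h : coeff m (φ₂ r) ∈ A₀, coeff m (ψ₂ r) = σ ⟨coeff m (φ₂ r), h⟩) ∧
      (∀ e ∈ F, ∃ h : e ∈ A₀, σ ⟨e, h⟩ ≠ 0) := by
  classical
  obtain ⟨S₁, hS₁⟩ := pair_exists_finset h1
  obtain ⟨S₂, hS₂⟩ := pair_exists_finset h2
  set S : Finset E := S₁ ∪ S₂ ∪ (F ∪ F.image (fun e => e⁻¹)) with hS
  set A₀ : Subalgebra ℂ E := Algebra.adjoin ℂ (S : Set E) with hA
  have hSA : (S : Set E) ⊆ A₀ := Algebra.subset_adjoin
  have : Algebra.FiniteType ℂ A₀ :=
    (Subalgebra.fg_iff_finiteType A₀).mp (Subalgebra.fg_adjoin_finset _)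
  obtain ⟨σ, -⟩ := exists_point_ne_zero (1 : A₀) one_ne_zero
  obtain ⟨ψ₁, hψ₁, hc₁⟩ := hS₁ A₀ (fun e he => hSA (by
    rw [hS]
    exact Finset.mem_coe.2 (Finset.mem_union_left _ (Finset.mem_union_left _ he)))) σ
  obtain ⟨ψ₂, hψ₂, hc₂⟩ := hS₂ A₀ (fun e he => hSA (by
    rw [hS]
    exact Finset.mem_coe.2 (Finset.mem_union_left _ (Finset.mem_union_right _ he)))) σ
  refine ⟨A₀, σ, ψ₁, ψ₂, hψ₁, hψ₂, hc₁, hc₂, fun e he => ?_⟩
  have he1 : e ∈ A₀ := hSA (by
    rw [hS]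
    exact Finset.mem_coe.2 (Finset.mem_union_right _ (Finset.mem_union_left _ he)))
  have he2 : e⁻¹ ∈ A₀ := hSA (by
    rw [hS]
    exact Finset.mem_coe.2 (Finset.mem_union_right _ (Finset.mem_union_right _
      (Finset.mem_image_of_mem _ he))))
  refine ⟨he1, fun h => ?_⟩
  have h3 : (⟨e, he1⟩ : A₀) * ⟨e⁻¹, he2⟩ = 1 := Subtype.ext (mul_inv_cancel₀ (hF e he))
  have h4 := congrArg σ h3
  rw [map_mul, h, zero_mul, map_one] at h4
  exact zero_ne_one h4

end Vale.Agent.P292
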