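import Vale.Agent.P292.MM.Chain2
import Vale.Agent.P292.MM.Gen
import Vale.Agent.P292.MM.Pair

/-! # There is no family of chains of two lines from the generic point to a fixed divisor -/

namespace Vale.Agent.P292

open MvPolynomial TensorProduct Filter

universe u v w

variable {R : Type u} [CommRing R] [Algebra ℂ R] {𝒜 : ℕ → Submodule ℂ R} [GradedAlgebra 𝒜]
  {P : R →ₗ[ℂ] R →ₗ[ℂ] R}

/-- specialisation of values. -/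
theorem mm_eval_spec' {κ : Type v} [Field κ] [Algebra ℂ κ] (A₀ : Subalgebra ℂ κ)
    (σ : A₀ →ₐ[ℂ] ℂ)
    (p : MvPolynomial (Fin 2) κ) (q : MvPolynomial (Fin 2) ℂ)
    (h : ∀ m, ∃ h : coeff m p ∈ A₀, coeff m q = σ ⟨coeff m p, h⟩)
    (a : Fin 2 → κ) (ha : ∀ i, a i ∈ A₀) (b : Fin 2 → ℂ) (hb : ∀ i, b i = σ ⟨a i, ha i⟩) :
    ∃ h : eval a p ∈ A₀, eval b q = σ ⟨eval a p, h⟩ := by
  classical
  choose h1 h2 using h
  let p₀ : MvPolynomial (Fin 2) A₀ := ∑ m ∈ p.support, monomial m ⟨coeff m p, h1 m⟩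
  have hp₀ : ∀ m, coeff m p₀ = ⟨coeff m p, h1 m⟩ := by
    intro m
    rw [show coeff m p₀ = ∑ n ∈ p.support, coeff m (monomial n (⟨coeff n p, h1 n⟩ : A₀)) from
      coeff_sum _ _ _]
    simp only [coeff_monomial]
    rw [Finset.sum_ite_eq' p.support m]
    split_ifs with hm
    · rfl
    · rw [notMem_support_iff] at hm
      exact Subtype.ext hm.symm
  have hp : map (algebraMap A₀ κ) p₀ = p := by
    ext m
    rw [coeff_map, hp₀]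
    rfl
  have hq : map (σ : A₀ →+* ℂ) p₀ = q := by
    ext m
    rw [coeff_map, hp₀, h2]
    rfl
  have h3 : ((eval (fun i => (⟨a i, ha i⟩ : A₀)) p₀ : A₀) : κ) = eval a p := by
    rw [← hp, eval_map]
    have := eval₂_comp_left (algebraMap A₀ κ) (RingHom.id A₀) (fun i => (⟨a i, ha i⟩ : A₀)) p₀
    rw [RingHom.comp_id] at this
    exact this
  have hmem : eval a p ∈ A₀ := by
    rw [← h3]
    exact SetLike.coe_mem _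
  refine ⟨hmem, ?_⟩
  have h4 : (⟨eval a p, hmem⟩ : A₀) = eval (fun i => (⟨a i, ha i⟩ : A₀)) p₀ := Subtype.ext h3.symm
  rw [h4, ← hq, eval_map]
  have h5 := eval₂_comp_left (σ : A₀ →+* ℂ) (RingHom.id A₀) (fun i => (⟨a i, ha i⟩ : A₀)) p₀
  rw [RingHom.comp_id] at h5
  have h6 : b = (σ : A₀ →+* ℂ) ∘ fun i => (⟨a i, ha i⟩ : A₀) := by
    funext i
    rw [hb]
    rfl
  rw [h6]
  exact h5.symm

theorem mm_mem_10 {κ : Type v} [Field κ] [Algebra ℂ κ] (A₀ : Subalgebra ℂ κ) (i : Fin 2) :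
    (![1, 0] : Fin 2 → κ) i ∈ A₀ := by
  fin_cases i
  · exact one_mem _
  · exact zero_mem _

theorem mm_mem_01 {κ : Type v} [Field κ] [Algebra ℂ κ] (A₀ : Subalgebra ℂ κ) (i : Fin 2) :
    (![0, 1] : Fin 2 → κ) i ∈ A₀ := by
  fin_cases i
  · exact zero_mem _
  · exact one_mem _

/-- Closed chains specialising a given chain. -/
theorem mm_closed_chain [Algebra.FiniteType ℂ R] {κ : Type v} [Field κ] [IsAlgClosed κ]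
    [Algebra ℂ κ] {Ψ₁ Ψ₂ : R →ₐ[ℂ] MvPolynomial (Fin 2) κ} (h₁ : IsCurve 𝒜 1 Ψ₁)
    (h₂ : IsCurve 𝒜 1 Ψ₂) (hν : pt Ψ₁ ![0, 1] = pt Ψ₂ ![0, 1]) (w : R →ₐ[ℂ] ℂ)
    (hw : ∀ r, pt Ψ₁ ![1, 0] r = algebraMap ℂ κ (w r)) (r₀ : R) (hr₀ : pt Ψ₂ ![1, 0] r₀ ≠ 0) :
    ∃ ψ₁ ψ₂ : R →ₐ[ℂ] MvPolynomial (Fin 2) ℂ, IsCurve 𝒜 1 ψ₁ ∧ IsCurve 𝒜 1 ψ₂ ∧
      pt ψ₁ ![0, 1] = pt ψ₂ ![0, 1] ∧ pt ψ₁ ![1, 0] = w ∧
      (∀ r, pt Ψ₂ ![1, 0] r = 0 → pt ψ₂ ![1, 0] r = 0) ∧ pt ψ₂ ![1, 0] r₀ ≠ 0 := by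
  classical
  obtain ⟨A₀, σ, ψ₁, ψ₂, hψ₁, hψ₂, hc₁, hc₂, hF⟩ := exists_closed_pair h₁ h₂
    ({pt Ψ₂ ![1, 0] r₀} : Finset κ) (fun e he => by
      rw [Finset.mem_singleton] at he
      rwa [he])
  have h10 : ∀ i, (![1, 0] : Fin 2 → ℂ) i = σ ⟨(![1, 0] : Fin 2 → κ) i, mm_mem_10 A₀ i⟩ := by
    intro i
    fin_cases i
    · exact (map_one σ).symm
    · exact (map_zero σ).symm
  have h01 : ∀ i, (![0, 1] : Fin 2 → ℂ) i = σ ⟨(![0, 1] : Fin 2 → κ) i, mm_mem_01 A₀ i⟩ := by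
    intro i
    fin_cases i
    · exact (map_zero σ).symm
    · exact (map_one σ).symm
  refine ⟨ψ₁, ψ₂, hψ₁, hψ₂, ?_, ?_, ?_, ?_⟩
  · ext r
    rw [pt_apply, pt_apply]
    obtain ⟨m1, e1⟩ := mm_eval_spec' A₀ σ (Ψ₁ r) (ψ₁ r) (hc₁ r) ![0, 1] (mm_mem_01 A₀) ![0, 1] h01
    obtain ⟨m2, e2⟩ := mm_eval_spec' A₀ σ (Ψ₂ r) (ψ₂ r) (hc₂ r) ![0, 1] (mm_mem_01 A₀) ![0, 1] h01
    rw [e1, e2]
    congr 1
    refine Subtype.ext ?_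
    have := DFunLike.congr_fun hν r
    rwa [pt_apply, pt_apply] at this
  · ext r
    rw [pt_apply]
    obtain ⟨m1, e1⟩ := mm_eval_spec' A₀ σ (Ψ₁ r) (ψ₁ r) (hc₁ r) ![1, 0] (mm_mem_10 A₀) ![1, 0] h10
    rw [e1]
    have h3 := hw r
    rw [pt_apply] at h3
    have h4 : (⟨eval ![1, 0] (Ψ₁ r), m1⟩ : A₀) = algebraMap ℂ A₀ (w r) := Subtype.ext h3
    rw [h4, AlgHom.commutes]
    rfl
  · intro r hr
    rw [pt_apply]
    obtain ⟨m2, e2⟩ := mm_eval_spec' A₀ σ (Ψ₂ r) (ψ₂ r) (hc₂ r) ![1, 0] (mm_mem_10 A₀) ![1, 0] h10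
    rw [e2]
    rw [pt_apply] at hr
    have h4 : (⟨eval ![1, 0] (Ψ₂ r), m2⟩ : A₀) = 0 := Subtype.ext hr
    rw [h4, map_zero]
  · rw [pt_apply]
    obtain ⟨m2, e2⟩ := mm_eval_spec' A₀ σ (Ψ₂ r₀) (ψ₂ r₀) (hc₂ r₀) ![1, 0] (mm_mem_10 A₀) ![1, 0]
      h10
    rw [e2]
    obtain ⟨m3, e3⟩ := hF _ (Finset.mem_singleton_self _)
    exact e3

/-- **No family of chains** from a generic closed point to a fixed subvariety. -/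
theorem no_chain_family (hX : IsContactFano 𝒜 P) [IsDomain R] (𝔮 : Ideal R) [𝔮.IsPrime]
    (S : Set (R →ₐ[ℂ] ℂ)) (hS : ∀ g : R, g ≠ 0 → ∃ w ∈ S, w g ≠ 0)
    (h : ∀ w ∈ S, ∃ (κ : Type u) (_ : Field κ) (_ : IsAlgClosed κ) (_ : Algebra ℂ κ)
      (Ψ₁ Ψ₂ : R →ₐ[ℂ] MvPolynomial (Fin 2) κ), IsCurve 𝒜 1 Ψ₁ ∧ IsCurve 𝒜 1 Ψ₂ ∧
      pt Ψ₁ ![0, 1] = pt Ψ₂ ![0, 1] ∧ (∀ r, pt Ψ₁ ![1, 0] r = algebraMap ℂ κ (w r)) ∧
      ∀ r, r ∈ 𝔮 ↔ pt Ψ₂ ![1, 0] r = 0) : False := by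
  classical
  have := hX.finiteType
  let B := R ⧸ 𝔮
  have hdomA : IsDomain (R ⊗[ℂ] B) := isDomain_tensor
  let mk : R →ₐ[ℂ] B := Ideal.Quotient.mkₐ ℂ 𝔮
  let T : Set (R ⊗[ℂ] B →ₐ[ℂ] ℂ) := {s | ∃ ψ₁ ψ₂ : R →ₐ[ℂ] MvPolynomial (Fin 2) ℂ,
    IsCurve 𝒜 1 ψ₁ ∧ IsCurve 𝒜 1 ψ₂ ∧ pt ψ₁ ![0, 1] = pt ψ₂ ![0, 1] ∧
    (∀ r, pt ψ₁ ![1, 0] r = s (r ⊗ₜ[ℂ] 1)) ∧ ∀ r, pt ψ₂ ![1, 0] r = s (1 ⊗ₜ[ℂ] mk r)}
  have hT : ∀ F : R ⊗[ℂ] B, F ≠ 0 → ∃ s ∈ T, s F ≠ 0 := by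
    intro F hF
    obtain ⟨g, hg, hgF⟩ := exists_evFst_ne_zero hF
    obtain ⟨w, hwS, hwg⟩ := hS g hg
    have h1 := hgF w hwg
    obtain ⟨r₀, hr₀⟩ := Ideal.Quotient.mk_surjective (evFst w F)
    obtain ⟨κ, _, _, _, Ψ₁, Ψ₂, hΨ₁, hΨ₂, hν, hw, h𝔮⟩ := h w hwS
    have hr₀' : pt Ψ₂ ![1, 0] r₀ ≠ 0 := by
      rw [Ne, ← h𝔮]
      intro hmem
      apply h1
      rw [← hr₀]
      exact Ideal.Quotient.eq_zero_iff_mem.2 hmem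
    obtain ⟨ψ₁, ψ₂, hψ₁, hψ₂, hν', hw', hz, hne⟩ := mm_closed_chain hΨ₁ hΨ₂ hν w hw r₀ hr₀'
    let q : B →ₐ[ℂ] ℂ := Ideal.Quotient.liftₐ 𝔮 (pt ψ₂ ![1, 0]) (fun r hr => hz r ((h𝔮 r).1 hr))
    have hq : ∀ r, q (mk r) = pt ψ₂ ![1, 0] r := fun r => rfl
    let s : R ⊗[ℂ] B →ₐ[ℂ] ℂ := q.comp (evFst w)
    have hs1 : ∀ r, s (r ⊗ₜ[ℂ] 1) = w r := by
      intro r
      change q (evFst w (r ⊗ₜ[ℂ] (1 : B))) = w r
      rw [evFst_tmul, map_smul, map_one, smul_eq_mul, mul_one]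
    have hs2 : ∀ b, s (1 ⊗ₜ[ℂ] b) = q b := by
      intro b
      change q (evFst w ((1 : R) ⊗ₜ[ℂ] b)) = q b
      rw [evFst_tmul, map_one, one_smul]
    refine ⟨s, ⟨ψ₁, ψ₂, hψ₁, hψ₂, hν', fun r => ?_, fun r => ?_⟩, ?_⟩
    · rw [hs1, hw']
    · rw [hs2, hq]
    · change q (evFst w F) ≠ 0
      rw [← hr₀]
      exact hne
  obtain ⟨U, hU⟩ := mm_exists_ultrafilter (R ⊗[ℂ] B) T hT
  obtain ⟨Ω, _, _, g, hg⟩ := exists_isUP U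
  have : IsAlgClosed Ω := hg.isAlgClosed
  choose ψ₁ ψ₂ hψ₁ hψ₂ hν hl hr using fun s : T => s.2
  obtain ⟨Φ₁, hΦ₁, -, he₁⟩ := hg.exists_curve hX.connected ψ₁ hψ₁
  obtain ⟨Φ₂, hΦ₂, -, he₂⟩ := hg.exists_curve hX.connected ψ₂ hψ₂
  let i : R ⊗[ℂ] B →ₐ[ℂ] Ω :=
    { toFun := fun x => g fun s => s.1 x
      map_one' := by simp only [map_one]; exact map_one g
      map_zero' := by simp only [map_zero]; exact map_zero g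
      map_mul' := fun x y => by simp only [map_mul]; exact map_mul g _ _
      map_add' := fun x y => by simp only [map_add]; exact map_add g _ _
      commutes' := fun c => by
        simp only [AlgHom.commutes]
        exact hg.const c }
  have hi : ∀ x, i x = g fun s => s.1 x := fun x => rfl
  have hinj : Function.Injective i := by
    rw [injective_iff_map_eq_zero]
    intro x hx
    by_contra hx0
    rw [hi, hg.zero] at hx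
    obtain ⟨s, h1, h2⟩ := (hx.and (hU x hx0)).exists
    exact h2 h1
  have e10 : (![1, 0] : Fin 2 → Ω) = fun j => g ((![1, 0] : Fin 2 → T → ℂ) j) := by
    funext j
    fin_cases j
    · simp
    · simp
  have e01 : (![0, 1] : Fin 2 → Ω) = fun j => g ((![0, 1] : Fin 2 → T → ℂ) j) := by
    funext j
    fin_cases j
    · simp
    · simp
  have e10' : ∀ s : T, (fun j => (![1, 0] : Fin 2 → T → ℂ) j s) = ![1, 0] := by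
    intro s
    funext j
    fin_cases j <;> simp
  have e01' : ∀ s : T, (fun j => (![0, 1] : Fin 2 → T → ℂ) j s) = ![0, 1] := by
    intro s
    funext j
    fin_cases j <;> simp
  have hl' : ∀ r, pt Φ₁ ![1, 0] r = i (r ⊗ₜ[ℂ] 1) := by
    intro r
    rw [pt_apply, hi, e10, he₁]
    congr 1
    funext s
    rw [e10', ← pt_apply, hl]
  have hr' : ∀ r, pt Φ₂ ![1, 0] r = i (1 ⊗ₜ[ℂ] mk r) := by
    intro r
    rw [pt_apply, hi, e10, he₂]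
    congr 1
    funext s
    rw [e10', ← pt_apply, hr]
  have hν' : pt Φ₁ ![0, 1] = pt Φ₂ ![0, 1] := by
    ext r
    rw [pt_apply, pt_apply, e01, he₁, he₂]
    congr 1
    funext s
    rw [e01', ← pt_apply, ← pt_apply, hν]
  refine no_two_chain hX hΦ₁ hΦ₂ hν' fun δ hδ => ?_
  have hcomp : pt Φ₁ ![1, 0] = i.comp Algebra.TensorProduct.includeLeft :=
    AlgHom.ext fun r => hl' r
  rw [hcomp] at hδ
  obtain ⟨D, hD1, hD2⟩ := mm_exists_der_tensor i hinj hδ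
  refine ⟨D, fun r => ?_, 0, fun r => ?_⟩
  · rw [hl', hD1]
  · rw [hr', hD2, zero_mul]

end Vale.Agent.P292
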