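import Vale.Agent.P292.K.MeetDefs

/-! # Points where the generic conic has good reduction over all divisors. -/

namespace Vale.Agent.P292

open MvPolynomial

universe u v

variable {R : Type u} [CommRing R] [Algebra ℂ R]

/-- The generic conic through the closed point `w` has good reduction at all valuations whose
centre is a divisor. -/
def GoodAt [IsDomain R] (𝒜 : ℕ → Submodule ℂ R) [GradedAlgebra 𝒜] (w : R →ₐ[ℂ] ℂ) : Prop :=
  ∀ (Ω : Type u) [Field Ω] [IsAlgClosed Ω] [Algebra ℂ Ω] (φ : R →ₐ[ℂ] MvPolynomial (Fin 2) Ω),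
    GenConicAt 𝒜 w φ → ∀ v : ValuationSubring Ω, (∀ c : ℂ, algebraMap ℂ Ω c ∈ v) →
    (∀ r, pt φ ![0, 1] r ∈ v) → ∀ (𝔭 : Ideal R) [𝔭.IsPrime],
    (∀ r, r ∈ 𝔭 ↔ v.valuation (pt φ ![0, 1] r) < 1) →
    IsDiscreteValuationRing (Localization.AtPrime 𝔭) →
    ∀ k : ℕ, ∀ r ∈ 𝒜 k, ∀ i ≤ 2 * k, cf (φ r) i (2 * k - i) ∈ v

/-- The closed points with good reduction are dense. -/
def FreeAt [IsDomain R] (𝒜 : ℕ → Submodule ℂ R) [GradedAlgebra 𝒜] : Prop :=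
  ∀ g : R, g ≠ 0 → ∃ w : R →ₐ[ℂ] ℂ, w g ≠ 0 ∧ GoodAt 𝒜 w

end Vale.Agent.P292
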