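import Vale.Agent.P292.K.I2
import Vale.Agent.P292.MM.FreeDefs

/-! # Block I2 at points with good reduction. -/

namespace Vale.Agent.P292

open MvPolynomial

universe u

variable {R : Type u} [CommRing R] [Algebra ℂ R] {𝒜 : ℕ → Submodule ℂ R} [GradedAlgebra 𝒜]
  {P : R →ₗ[ℂ] R →ₗ[ℂ] R} {Ω : Type u} [Field Ω] [IsAlgClosed Ω] [Algebra ℂ Ω]
  {w : R →ₐ[ℂ] ℂ} {φ : R →ₐ[ℂ] MvPolynomial (Fin 2) Ω}

/-- I2 with good reduction: `b` itself is a root of a good polynomial. -/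
theorem exists_isGood_two_of_goodAt [IsDomain R] (hX : IsContactFano 𝒜 P)
    (hφ : GenConicAt 𝒜 w φ) {b : Ω} (hb : omC P φ (pd φ 0) (pd φ 1) = C b)
    (hw : GoodAt 𝒜 w) :
    ∃ Q : Polynomial R, IsGood 𝒜 P 2 Q ∧ Q.eval₂ (pt φ ![0, 1] : R →+* Ω) b = 0 :=
  exists_isGood_two_of_mem hX hφ hb fun v hv hR 𝔭 _ h𝔭 hdvr k hk r hr =>
    hw Ω φ hφ v hv hR 𝔭 h𝔭 hdvr k r hr 1 (by omega)

/-- If no closed line passes through `w` then `w` has good reduction. -/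
theorem goodAt_of_no_line [IsDomain R] (hX : IsContactFano 𝒜 P) (hdim : 4 ≤ cdim R)
    (hno : ¬ ∃ ψ : R →ₐ[ℂ] MvPolynomial (Fin 2) ℂ, IsCurve 𝒜 1 ψ ∧ pt ψ ![1, 0] = w) :
    GoodAt 𝒜 w := by
  intro Ω _ _ _ φ hφ v hv hR 𝔭 _ h𝔭 hdvr k r hr i hi
  by_contra hn
  obtain ⟨κ, _, _, _, Ψ, hΨ, h10⟩ := exists_line_of_not_mem hX hdim hφ v hv hR 𝔭 h𝔭 hdvr k r hr i
    hi hn
  exact hno (exists_closed_line hX Ψ hΨ h10)

end Vale.Agent.P292
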