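import Vale.Agent.P292.K.N3
import Vale.Agent.P292.K.MeetDefs

/-! # Closed specialisation of a curve which meets a subvariety. -/

namespace Vale.Agent.P292

open MvPolynomial

universe u v w

variable {R : Type u} [CommRing R] [Algebra ℂ R] {𝒜 : ℕ → Submodule ℂ R} [GradedAlgebra 𝒜]
  {P : R →ₗ[ℂ] R →ₗ[ℂ] R}

/-- specialisation of values. -/
theorem mm_eval_spec {κ : Type v} [Field κ] [Algebra ℂ κ] (A₀ : Subalgebra ℂ κ) (σ : A₀ →ₐ[ℂ] ℂ)
    (p : MvPolynomial (Fin 2) κ) (q : MvPolynomial (Fin 2) ℂ)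
    (h : ∀ m, ∃ h : coeff m p ∈ A₀, coeff m q = σ ⟨coeff m p, h⟩)
    (a : Fin 2 → κ) (ha : ∀ i, a i ∈ A₀) (h0 : eval a p = 0) :
    eval (fun i => σ ⟨a i, ha i⟩) q = 0 := by
  classical
  choose h1 h2 using h
  let p₀ : MvPolynomial (Fin 2) A₀ := ∑ m ∈ p.support, monomial m ⟨coeff m p, h1 m⟩
  have hp₀ : ∀ m, coeff m p₀ = ⟨coeff m p, h1 m⟩ := by
    intro m
    rw [show coeff m p₀ = ∑ n ∈ p.support, coeff m (monomial n (⟨coeff n p, h1 n⟩ : A₀)) from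
      coeff_sum _ _ _]
    simp only [coeff_monomial]
    rw [Finset.sum_ite_eq' p.support m]
    split_ifs with hm
    · rfl
    · rw [notMem_support_iff] at hm
      exact Subtype.ext hm.symm
  have hp : map (algebraMap A₀ κ) p₀ = p := by
    ext m
    rw [coeff_map, hp₀]
    rfl
  have hq : map (σ : A₀ →+* ℂ) p₀ = q := by
    ext m
    rw [coeff_map, hp₀, h2]
    rfl
  have h3 : ((eval (fun i => (⟨a i, ha i⟩ : A₀)) p₀ : A₀) : κ) = 0 := by
    rw [← h0, ← hp, eval_map]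
    have := eval₂_comp_left (algebraMap A₀ κ) (RingHom.id A₀) (fun i => (⟨a i, ha i⟩ : A₀)) p₀
    rw [RingHom.comp_id] at this
    exact this
  have h4 : eval (fun i => (⟨a i, ha i⟩ : A₀)) p₀ = 0 := Subtype.ext h3
  rw [← hq, eval_map]
  have h5 := eval₂_comp_left (σ : A₀ →+* ℂ) (RingHom.id A₀) (fun i => (⟨a i, ha i⟩ : A₀)) p₀
  rw [RingHom.comp_id] at h5
  have h6 : eval₂ (RingHom.id A₀) (fun i => (⟨a i, ha i⟩ : A₀)) p₀ = 0 := h4
  rw [h6, map_zero] at h5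
  exact h5.symm

/-- **Closed specialisation.** A curve over an algebraically closed field, which meets `V(𝔭)` and
on which `D` does not vanish, specialises to such a curve over `ℂ`. -/
theorem exists_closed_meets [Algebra.FiniteType ℂ R] {κ : Type v} [Field κ] [IsAlgClosed κ]
    [Algebra ℂ κ] {d : ℕ} {φ : R →ₐ[ℂ] MvPolynomial (Fin 2) κ} (hφ : IsCurve 𝒜 d φ) {D : R}
    (hD : φ D ≠ 0) {𝔭 : Ideal R} (h : Meets φ 𝔭) :
    ∃ ψ : R →ₐ[ℂ] MvPolynomial (Fin 2) ℂ, IsCurve 𝒜 d ψ ∧ ψ D ≠ 0 ∧ Meets ψ 𝔭 := by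
  classical
  obtain ⟨a, ha, h⟩ := h
  obtain ⟨m₀, hm₀⟩ := MvPolynomial.ne_zero_iff.1 hD
  set F : Finset κ := Finset.filter (fun e => e ≠ 0)
    ({a 0, a 1, coeff m₀ (φ D)} : Finset κ) with hFdef
  have hF0 : ∀ e ∈ F, e ≠ 0 := fun e he => by
    rw [hFdef, Finset.mem_filter] at he
    exact he.2
  obtain ⟨A₀, σ, ψ, hψ, hc, -, hF⟩ := hφ.exists_closed' F hF0
  have hmem : ∀ i, a i ≠ 0 → a i ∈ F := by
    intro i hi
    rw [hFdef, Finset.mem_filter]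
    refine ⟨?_, hi⟩
    fin_cases i <;> simp
  have ha' : ∀ i, a i ∈ A₀ := by
    intro i
    by_cases hi : a i = 0
    · rw [hi]; exact zero_mem _
    · exact (hF _ (hmem i hi)).choose
  refine ⟨ψ, hψ, ?_, fun i => σ ⟨a i, ha' i⟩, ?_, fun r hr => ?_⟩
  · intro h0
    obtain ⟨h1, h2⟩ := hF (coeff m₀ (φ D)) (by
      rw [hFdef, Finset.mem_filter]
      exact ⟨by simp, hm₀⟩)
    obtain ⟨h3, h4⟩ := hc D m₀
    rw [h0, coeff_zero] at h4
    exact h2 h4.symm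
  · intro h0
    apply ha
    funext i
    by_contra hi
    obtain ⟨h1, h2⟩ := hF _ (hmem i hi)
    exact h2 (congrFun h0 i)
  · rw [pt_apply]
    exact mm_eval_spec A₀ σ (φ r) (ψ r) (hc r) a ha' (by rw [← pt_apply]; exact h r hr)

end Vale.Agent.P292
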