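import Vale.Agent.P292.MM.LWQ
import Vale.Agent.P292.MM.Closed
import Vale.Agent.P292.MM.FreeDefs
import Vale.Agent.P292.Meet.BP
import Vale.Agent.P292.Q.Meet
import Vale.Agent.P292.K.Main1

/-! # If the generic conics degenerate over divisors, then lines meet all divisors. -/

namespace Vale.Agent.P292

open MvPolynomial

universe u v w

variable {R : Type u} [CommRing R] [Algebra ℂ R] {𝒜 : ℕ → Submodule ℂ R} [GradedAlgebra 𝒜]
  {P : R →ₗ[ℂ] R →ₗ[ℂ] R}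

/-- Vanishing on a homogeneous ideal can be checked on homogeneous elements. -/
theorem nf_ext {𝔭 : Ideal R} (hhom : 𝔭.IsHomogeneous 𝒜) {M : Type*} [AddCommGroup M] [Module ℂ M]
    (f : R →ₗ[ℂ] M) (h : ∀ k, ∀ r ∈ 𝒜 k, r ∈ 𝔭 → f r = 0) : ∀ r ∈ 𝔭, f r = 0 := by
  classical
  intro r hr
  rw [← DirectSum.sum_support_decompose 𝒜 r, map_sum]
  exact Finset.sum_eq_zero fun k _ => h k _ (SetLike.coe_mem _) (hhom k hr)

/-- A height one homogeneous prime contains a nonzero homogeneous element of positive degree. -/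
theorem nf_exists_homog (hX : IsContactFano 𝒜 P) [IsDomain R] (𝔭 : Ideal R) [𝔭.IsPrime]
    (hdvr : IsDiscreteValuationRing (Localization.AtPrime 𝔭)) (hhom : 𝔭.IsHomogeneous 𝒜) :
    ∃ k, 0 < k ∧ ∃ r ∈ 𝒜 k, r ≠ 0 ∧ r ∈ 𝔭 := by
  classical
  have h1 : 𝔭 ≠ ⊥ := by
    intro h0
    apply IsDiscreteValuationRing.not_a_field (Localization.AtPrime 𝔭)
    rw [← IsLocalization.AtPrime.map_eq_maximalIdeal 𝔭 (Localization.AtPrime 𝔭)]
    refine (Ideal.map_eq_bot_iff_le_ker _).2 fun x hx => ?_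
    rw [h0] at hx
    rw [(Submodule.mem_bot R).1 hx]
    exact Ideal.zero_mem _
  obtain ⟨r, hr, hr0⟩ := Submodule.exists_mem_ne_zero_of_ne_bot h1
  have h2 : ∃ k, (DirectSum.decompose 𝒜 r k : R) ≠ 0 := by
    by_contra hcon
    push Not at hcon
    apply hr0
    rw [← DirectSum.sum_support_decompose 𝒜 r]
    exact Finset.sum_eq_zero fun k _ => hcon k
  obtain ⟨k, hk⟩ := h2
  refine ⟨k, Nat.pos_of_ne_zero ?_, _, SetLike.coe_mem _, hk, hhom k hr⟩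
  rintro rfl
  obtain ⟨c, hc⟩ := hX.connected _ (SetLike.coe_mem (DirectSum.decompose 𝒜 r 0))
  have h3 := hhom 0 hr
  have hc0 : c ≠ 0 := by
    intro h0
    apply hk
    rw [hc, h0, map_zero]
  apply (inferInstance : 𝔭.IsPrime).ne_top
  rw [Ideal.eq_top_iff_one]
  have h4 : (1 : R) = algebraMap ℂ R c⁻¹ * algebraMap ℂ R c := by
    rw [← map_mul, inv_mul_cancel₀ hc0, map_one]
  rw [h4]
  refine 𝔭.mul_mem_left _ ?_
  change (DirectSum.decompose 𝒜 r 0 : R) ∈ 𝔭 at h3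
  rwa [hc] at h3

section

variable {w : R →ₐ[ℂ] ℂ} {Ω : Type v} [Field Ω] [IsAlgClosed Ω] [Algebra ℂ Ω]
  {φ : R →ₐ[ℂ] MvPolynomial (Fin 2) Ω}

/-- The generic conic meets a divisor, or there is a line which meets it. -/
theorem nf_meets (hX : IsContactFano 𝒜 P) [IsDomain R] (hφ : GenConicAt 𝒜 w φ) {D : R}
    (hwD : w D ≠ 0) (𝔭 : Ideal R) [𝔭.IsPrime]
    (hdvr : IsDiscreteValuationRing (Localization.AtPrime 𝔭)) (hhom : 𝔭.IsHomogeneous 𝒜)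
    {k₀ : ℕ} (hk₀ : 0 < k₀) {g₀ : R} (hg₀ : g₀ ∈ 𝒜 k₀) (hg₀𝔭 : g₀ ∈ 𝔭) (hwg : w g₀ ≠ 0)
    (hE : ∃ k, 0 < k ∧ ∃ r ∈ 𝒜 k, r ∉ 𝔭) :
    (∃ ψ : R →ₐ[ℂ] MvPolynomial (Fin 2) ℂ, IsCurve 𝒜 1 ψ ∧ ψ D ≠ 0 ∧ Meets ψ 𝔭) ∨ Meets φ 𝔭 := by
  have := hX.finiteType
  obtain ⟨O, hO⟩ := exists_valuationSubring_prime (pt φ ![0, 1]).toRingHom hφ.inj 𝔭
  have hO1 : ∀ a, O.valuation (pt φ ![0, 1] a) ≤ 1 := fun a =>
    (O.valuation_le_one_iff _).2 (hO a).1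
  have hO2 : ∀ a, a ∈ 𝔭 ↔ O.valuation (pt φ ![0, 1] a) < 1 := fun a => (hO a).2
  have hcst : ∀ c : ℂ, O.valuation (algebraMap ℂ Ω c) ≤ 1 := fun c => by
    rw [← (pt φ ![0, 1]).commutes]; exact hO1 _
  obtain ⟨κ, _, _, res, hp, hs⟩ := exists_isPlace O.valuation hcst
  have hκ : IsAlgClosed κ := isAlgClosed_of_isPlace hp hs
  have hdeg := hφ.curve.degree
  have e10 : ∀ r, eval ![1, 0] (φ r) = algebraMap ℂ Ω (w r) := fun r => by
    rw [← pt_apply]; exact hφ.left r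
  rcases good_or_chain hX hp hdeg (fun r => by rw [e10]; exact hcst _)
    (fun r => by rw [← pt_apply]; exact hO1 _) with ⟨Φ₀, hΦ₀, hred⟩ | ⟨ρ, Ψ₁, Ψ₂, hch⟩
  · -- good reduction
    right
    let f : R →+* Polynomial Ω := ((nwDehom Ω 1).comp φ : R →ₐ[ℂ] Polynomial Ω)
    have hf : ∀ r, f r = nwDehom Ω 1 (φ r) := fun r => rfl
    have hf0 : ∀ r, (f r).coeff 0 = pt φ ![0, 1] r := fun r => by
      rw [hf, ← nw_eval_zero_one, pt_apply]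
    have hfh : ∀ k, ∀ r ∈ 𝒜 k, ∀ i, O.valuation ((f r).coeff i) ≤ 1 := by
      intro k r hr i
      rcases Nat.lt_or_ge (2 * k) i with h | h
      · rw [hf, Polynomial.coeff_eq_zero_of_natDegree_lt (lt_of_le_of_lt
          (nwDehom_natDegree_le 1 0 (by decide) (hdeg k r hr)) h), map_zero]
        exact zero_le
      · have h1 := nwDehom_coeff 1 0 (by decide) (hdeg k r hr)
          (m := Finsupp.single 0 i + Finsupp.single 1 (2 * k - i)) (by simp; omega)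
        have h2 : (Finsupp.single 0 i + Finsupp.single 1 (2 * k - i) : Fin 2 →₀ ℕ) 0 = i := by
          simp
        rw [h2] at h1
        rw [hf, h1]
        exact hred.bound r _
    obtain ⟨a, -, ha⟩ := exists_root_prime O f (fun r i => by
      classical
      rw [← DirectSum.sum_support_decompose 𝒜 r, map_sum, Polynomial.finsetSum_coeff]
      exact O.valuation.map_sum_le fun k _ => hfh k _ (SetLike.coe_mem _) i) 𝔭
      (fun r => by rw [hf0]; exact hO2 r)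
      (fun Q hQ hQ𝔭 hQ0 => (eq_bot_or_eq_of_dvr 𝔭 hdvr Q hQ𝔭).resolve_left hQ0)
      hg₀𝔭 (fun h => hwg (by rw [h, map_zero])) ⟨2 * k₀, by
        rw [hf, ← nwDehom_coeff_symm (hdeg k₀ g₀ hg₀) (i := 0) (j := 2 * k₀) (by omega),
          ← nw_eval_one_zero, e10]
        refine le_antisymm (hcst _) ?_
        have h1 := hcst (w g₀)⁻¹
        rw [map_inv₀, map_inv₀] at h1
        have h2 : O.valuation (algebraMap ℂ Ω (w g₀)) ≠ 0 := by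
          rw [Ne, Valuation.zero_iff, map_eq_zero_iff _ (algebraMap ℂ Ω).injective]
          exact hwg
        exact (inv_le_one₀ (zero_lt_iff.2 h2)).1 h1⟩
    refine ⟨![a, 1], fun h => ?_, fun r hr => ?_⟩
    · have := congrFun h 1
      simp at this
    · rw [pt_apply, ← eval_nwDehom_one, ← hf]
      exact (ha r).2 hr
  · -- a chain
    left
    have e1 : ∀ r, eval ![1, 0] (Ψ₁ r) = algebraMap ℂ κ (w r) := fun r => by
      rw [hch.end₁, e10, hp.map_algebraMap]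
    have e2 : ∀ r, eval ![1, 0] (Ψ₂ r) = 0 ↔ r ∈ 𝔭 := fun r => by
      rw [hch.end₂, ← pt_apply, hp.eq_zero_iff _ (hO1 r)]
      exact (hO2 r).symm
    have e3 := hch.node_eq hdeg
    have n1 : ∃ k, 0 < k ∧ ∃ r ∈ 𝒜 k, eval ![1, 0] (Ψ₁ r) ≠ 0 := by
      refine ⟨k₀, hk₀, g₀, hg₀, ?_⟩
      rw [e1, Ne, map_eq_zero_iff _ (algebraMap ℂ κ).injective]
      exact hwg
    have n2 : ∃ k, 0 < k ∧ ∃ r ∈ 𝒜 k, eval ![1, 0] (Ψ₂ r) ≠ 0 := by
      obtain ⟨k, hk, r, hr, h⟩ := hE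
      exact ⟨k, hk, r, hr, fun h0 => h ((e2 r).1 h0)⟩
    have n3 : ∃ k, 0 < k ∧ ∃ r ∈ 𝒜 k, eval ![0, 1] (Ψ₂ r) ≠ 0 := by
      obtain ⟨k, hk, r, hr, h⟩ := hch.node
      exact ⟨k, hk, r, hr, by rw [← e3]; exact h⟩
    -- if the second line meets the divisor with `Ψ₂ D ≠ 0` we are done
    by_cases hgood : IsCurve 𝒜 1 Ψ₂ ∧ Ψ₂ D ≠ 0
    · exact exists_closed_meets hgood.1 hgood.2 ⟨![1, 0], mm_one_zero_ne, fun r hr => by
        rw [pt_apply]; exact (e2 r).2 hr⟩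
    -- otherwise the node lies on the divisor
    have hnode : ∀ r ∈ 𝔭, eval ![0, 1] (Ψ₂ r) = 0 := by
      rcases isCurve_one_or hX Ψ₂ hch.homog₂ ![1, 0] ![0, 1] n2 n3 with hcur | ⟨c, hc0, hc⟩
      · have hD : Ψ₂ D = 0 := by
          by_contra hcon
          exact hgood ⟨hcur, hcon⟩
        have hker : (RingHom.ker Ψ₂).IsPrime := RingHom.ker_isPrime _
        have hle : RingHom.ker Ψ₂ ≤ 𝔭 := fun r hr => (e2 r).1 (by
          rw [RingHom.mem_ker] at hr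
          rw [hr, map_zero])
        rcases eq_bot_or_eq_of_dvr 𝔭 hdvr (RingHom.ker Ψ₂) hle with h0 | h0
        · exfalso
          have h1 : D ∈ RingHom.ker Ψ₂ := hD
          rw [h0, Ideal.mem_bot] at h1
          exact hwD (by rw [h1, map_zero])
        · intro r hr
          rw [← h0, RingHom.mem_ker] at hr
          rw [hr, map_zero]
      · refine nf_ext hhom ((pt Ψ₂ ![0, 1]).toLinearMap) (fun k r hr hr𝔭 => ?_)
          |> fun h r hr => by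
            have := h r hr
            change pt Ψ₂ ![0, 1] r = 0 at this
            rwa [pt_apply] at this
        change pt Ψ₂ ![0, 1] r = 0
        rw [pt_apply, hc k r hr, (e2 r).2 hr𝔭, mul_zero]
    have hnode' : ∀ r ∈ 𝔭, eval ![0, 1] (Ψ₁ r) = 0 := fun r hr => by rw [e3]; exact hnode r hr
    rcases isCurve_one_or hX Ψ₁ hch.homog₁ ![1, 0] ![0, 1] n1 hch.node with hcur | ⟨c, hc0, hc⟩
    · refine exists_closed_meets hcur (D := D) (fun h => ?_) ⟨![0, 1], mm_zero_one_ne,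
        fun r hr => by rw [pt_apply]; exact hnode' r hr⟩
      have h1 := e1 D
      rw [h, map_zero] at h1
      exact hwD ((map_eq_zero_iff _ (algebraMap ℂ κ).injective).1 h1.symm)
    · exfalso
      have h1 := hc k₀ g₀ hg₀
      rw [hnode' g₀ hg₀𝔭, e1] at h1
      refine mul_ne_zero (pow_ne_zero k₀ hc0) ?_ h1.symm
      rw [Ne, map_eq_zero_iff _ (algebraMap ℂ κ).injective]
      exact hwg

omit [IsAlgClosed Ω] in
/-- A chain over a divisor consists of two lines. -/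
theorem nf_chain (hX : IsContactFano 𝒜 P) [IsDomain R] (hdim : 3 ≤ cdim R)
    (hφ : GenConicAt 𝒜 w φ) (hwv : ¬ IsVertex 𝒜 w) (q : Ideal R) [q.IsPrime]
    (hdvr : IsDiscreteValuationRing (Localization.AtPrime q))
    {κ : Type w} [Field κ] [IsAlgClosed κ] [Algebra ℂ κ]
    {Γ : Type*} [LinearOrderedCommGroupWithZero Γ] {v : Valuation Ω Γ} {res : Ω → κ}
    (hp : IsPlace v res) (hv1 : ∀ r, v (pt φ ![0, 1] r) ≤ 1)
    (hq : ∀ r, r ∈ q ↔ v (pt φ ![0, 1] r) < 1) {ρ : Ω}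
    {Ψ₁ Ψ₂ : R →ₐ[ℂ] MvPolynomial (Fin 2) κ} (hch : IsChain 𝒜 v res φ ρ Ψ₁ Ψ₂) :
    IsCurve 𝒜 1 Ψ₁ ∧ IsCurve 𝒜 1 Ψ₂ ∧ pt Ψ₁ ![0, 1] = pt Ψ₂ ![0, 1] ∧
      (∀ r, pt Ψ₁ ![1, 0] r = algebraMap ℂ κ (w r)) ∧ ∀ r, r ∈ q ↔ pt Ψ₂ ![1, 0] r = 0 := by
  have hdeg := hφ.curve.degree
  have e1 : ∀ r, eval ![1, 0] (Ψ₁ r) = algebraMap ℂ κ (w r) := fun r => by
    rw [hch.end₁, ← pt_apply, hφ.left, hp.map_algebraMap]
  have e2 : ∀ r, eval ![1, 0] (Ψ₂ r) = 0 ↔ r ∈ q := fun r => by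
    rw [hch.end₂, ← pt_apply, hp.eq_zero_iff _ (hv1 r)]
    exact (hq r).symm
  have e3 := hch.node_eq hdeg
  have hwne : ∀ r, w r ≠ 0 → algebraMap ℂ κ (w r) ≠ 0 := fun r h => by
    rw [Ne, map_eq_zero_iff _ (algebraMap ℂ κ).injective]
    exact h
  have hq0 : ¬ ∀ k, ∀ r ∈ 𝒜 k, w r = 0 → r ∈ q := fun h => not_le_of_dvr hX hdim w hwv q hdvr h
  have n1 : ∃ k, 0 < k ∧ ∃ r ∈ 𝒜 k, eval ![1, 0] (Ψ₁ r) ≠ 0 := by
    unfold IsVertex at hwv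
    push Not at hwv
    obtain ⟨k, hk, r, hr, h⟩ := hwv
    exact ⟨k, hk, r, hr, by rw [e1]; exact hwne r h⟩
  have n2 : ∃ k, 0 < k ∧ ∃ r ∈ 𝒜 k, eval ![1, 0] (Ψ₂ r) ≠ 0 := by
    by_contra hcon
    push Not at hcon
    refine hq0 fun k r hr h => ?_
    rcases Nat.eq_zero_or_pos k with rfl | hk
    · obtain ⟨c, rfl⟩ := hX.connected r hr
      rw [AlgHom.commutes] at h
      have hc0 : c = 0 := h
      rw [hc0, map_zero]
      exact q.zero_mem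
    · exact (e2 r).1 (hcon k hk r hr)
  have n3 : ∃ k, 0 < k ∧ ∃ r ∈ 𝒜 k, eval ![0, 1] (Ψ₂ r) ≠ 0 := by
    obtain ⟨k, hk, r, hr, h⟩ := hch.node
    exact ⟨k, hk, r, hr, by rw [← e3]; exact h⟩
  -- a line through `w` and the generic point of the divisor, up to scaling
  have hline : ∀ Ψ : R →ₐ[ℂ] MvPolynomial (Fin 2) κ, IsCurve 𝒜 1 Ψ →
      ∀ a b : Fin 2 → κ, a 0 * b 1 - a 1 * b 0 ≠ 0 →
      (∀ k, ∀ r ∈ 𝒜 k, eval a (Ψ r) = algebraMap ℂ κ (w r)) →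
      (∀ k, ∀ r ∈ 𝒜 k, eval b (Ψ r) = eval ![1, 0] (Ψ₂ r)) → False := by
    intro Ψ hΨ a b hab ha hb
    have h1 : pt Ψ a = (Algebra.ofId ℂ κ).comp w := by
      refine AlgHom.ext fun r => ?_
      have := LinearMap.congr_fun (mm_ext (𝒜 := 𝒜) (f := (pt Ψ a).toLinearMap)
        (g := ((Algebra.ofId ℂ κ).comp w).toLinearMap) (fun k r hr => by
          change pt Ψ a r = algebraMap ℂ κ (w r)
          rw [pt_apply]; exact ha k r hr)) r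
      exact this
    have h2 : pt Ψ b = pt Ψ₂ ![1, 0] := by
      refine AlgHom.ext fun r => ?_
      have := LinearMap.congr_fun (mm_ext (𝒜 := 𝒜) (f := (pt Ψ b).toLinearMap)
        (g := (pt Ψ₂ ![1, 0]).toLinearMap) (fun k r hr => by
          change pt Ψ b r = pt Ψ₂ ![1, 0] r
          rw [pt_apply, pt_apply]; exact hb k r hr)) r
      exact this
    refine no_line_to_dvr hX hdim (hΨ.reparam a b (ne_zero_of_det hab)) w (fun r => ?_) q hdvr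
      (fun r => ?_)
    · rw [pt_reparam]
      have : (![1, 0] : Fin 2 → κ) 0 • a + (![1, 0] : Fin 2 → κ) 1 • b = a := by simp
      rw [this, h1]
      rfl
    · rw [pt_reparam]
      have : (![0, 1] : Fin 2 → κ) 0 • a + (![0, 1] : Fin 2 → κ) 1 • b = b := by simp
      rw [this, h2, pt_apply, e2]
  have hc₁ : IsCurve 𝒜 1 Ψ₁ := by
    rcases isCurve_one_or hX Ψ₁ hch.homog₁ ![1, 0] ![0, 1] n1 hch.node with hcur | ⟨c, hc0, hc⟩
    · exact hcur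
    · exfalso
      rcases isCurve_one_or hX Ψ₂ hch.homog₂ ![1, 0] ![0, 1] n2 n3 with hcur | ⟨c', hc0', hc'⟩
      · refine hline Ψ₂ hcur (c⁻¹ • ![0, 1]) ![1, 0] (by simpa using hc0) (fun k r hr => ?_)
          (fun k r hr => rfl)
        rw [eval_smul_form (hch.homog₂ k r hr), one_mul, ← e3, hc k r hr, e1, ← mul_assoc,
          ← mul_pow, inv_mul_cancel₀ hc0, one_pow, one_mul]
      · refine hq0 fun k r hr h => (e2 r).1 ?_
        have h4 := hc' k r hr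
        rw [← e3, hc k r hr, e1, h, map_zero, mul_zero] at h4
        exact (mul_eq_zero.1 h4.symm).resolve_left (pow_ne_zero k hc0')
  have hc₂ : IsCurve 𝒜 1 Ψ₂ := by
    rcases isCurve_one_or hX Ψ₂ hch.homog₂ ![1, 0] ![0, 1] n2 n3 with hcur | ⟨c', hc0', hc'⟩
    · exact hcur
    · exfalso
      refine hline Ψ₁ hc₁ ![1, 0] (c'⁻¹ • ![0, 1]) (by simpa using hc0') (fun k r hr => e1 r)
        (fun k r hr => ?_)
      rw [eval_smul_form (hch.homog₁ k r hr), one_mul, e3, hc' k r hr, ← mul_assoc,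
        ← mul_pow, inv_mul_cancel₀ hc0', one_pow, one_mul]
  refine ⟨hc₁, hc₂, AlgHom.ext fun r => ?_, fun r => ?_, fun r => ?_⟩
  · rw [pt_apply, pt_apply]; exact e3 r
  · rw [pt_apply]; exact e1 r
  · rw [pt_apply]; exact (e2 r).symm

end

/-- The conclusion for one point. -/
theorem nf_point (hX : IsContactFano 𝒜 P) [IsDomain R] (hdim : 3 ≤ cdim R) {w : R →ₐ[ℂ] ℂ}
    (hbad : ¬ GoodAt 𝒜 w) {D : R} (hwD : w D ≠ 0) (𝔭 : Ideal R) [𝔭.IsPrime]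
    (hdvr : IsDiscreteValuationRing (Localization.AtPrime 𝔭)) (hhom : 𝔭.IsHomogeneous 𝒜)
    {k₀ : ℕ} (hk₀ : 0 < k₀) {g₀ : R} (hg₀ : g₀ ∈ 𝒜 k₀) (hg₀𝔭 : g₀ ∈ 𝔭) (hwg : w g₀ ≠ 0)
    (hno : ¬ ∃ ψ : R →ₐ[ℂ] MvPolynomial (Fin 2) ℂ, IsCurve 𝒜 1 ψ ∧ ψ D ≠ 0 ∧ Meets ψ 𝔭) :
    ∃ q : Ideal R, q.IsPrime ∧ (∃ _ : q.IsPrime,
        IsDiscreteValuationRing (Localization.AtPrime q)) ∧ D ∈ q ∧
      ∃ (κ : Type u) (_ : Field κ) (_ : IsAlgClosed κ) (_ : Algebra ℂ κ)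
        (Ψ₁ Ψ₂ : R →ₐ[ℂ] MvPolynomial (Fin 2) κ), IsCurve 𝒜 1 Ψ₁ ∧ IsCurve 𝒜 1 Ψ₂ ∧
        pt Ψ₁ ![0, 1] = pt Ψ₂ ![0, 1] ∧ (∀ r, pt Ψ₁ ![1, 0] r = algebraMap ℂ κ (w r)) ∧
        ∀ r, r ∈ q ↔ pt Ψ₂ ![1, 0] r = 0 := by
  have := hX.finiteType
  have hwv : ¬ IsVertex 𝒜 w := fun h => hwg (h k₀ hk₀ g₀ hg₀)
  have hE : ∀ (q : Ideal R) [q.IsPrime], IsDiscreteValuationRing (Localization.AtPrime q) →
      ∃ k, 0 < k ∧ ∃ r ∈ 𝒜 k, r ∉ q := by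
    intro q _ hdvr
    by_contra hcon
    push Not at hcon
    refine not_le_of_dvr hX hdim w hwv q hdvr fun k r hr h => ?_
    rcases Nat.eq_zero_or_pos k with rfl | hk
    · obtain ⟨c, rfl⟩ := hX.connected r hr
      rw [AlgHom.commutes] at h
      have hc0 : c = 0 := h
      rw [hc0, map_zero]
      exact q.zero_mem
    · exact hcon k hk r hr
  unfold GoodAt at hbad
  push Not at hbad
  obtain ⟨Ω, _, _, _, φ, hφ, v, hv, hv01, q, hq, hqv, hqdvr, k, r, hr, i, hi, hcf⟩ := hbad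
  have hmeet := (nf_meets hX hφ hwD 𝔭 hdvr hhom hk₀ hg₀ hg₀𝔭 hwg (hE 𝔭 hdvr)).resolve_left hno
  have hcst : ∀ c : ℂ, v.valuation (algebraMap ℂ Ω c) ≤ 1 := fun c =>
    (v.valuation_le_one_iff _).2 (hv c)
  have hv1 : ∀ r, v.valuation (pt φ ![0, 1] r) ≤ 1 := fun r =>
    (v.valuation_le_one_iff _).2 (hv01 r)
  obtain ⟨κ, _, _, res, hp, hs⟩ := exists_isPlace v.valuation hcst
  have hκ : IsAlgClosed κ := isAlgClosed_of_isPlace hp hs
  have hdeg := hφ.curve.degree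
  rcases good_or_chain hX hp hdeg (fun r => by rw [← pt_apply, hφ.left]; exact hcst _)
    (fun r => by rw [← pt_apply]; exact hv1 _) with ⟨Φ₀, hΦ₀, hred⟩ | ⟨ρ, Ψ₁, Ψ₂, hch⟩
  · exact absurd ((v.valuation_le_one_iff _).1 (hred.bound r _)) hcf
  · obtain ⟨hc₁, hc₂, hn, hw, hqq⟩ := nf_chain hX hdim hφ hwv q hqdvr hp hv1 hqv hch
    refine ⟨q, hq, ⟨hq, hqdvr⟩, ?_, κ, _, hκ, _, Ψ₁, Ψ₂, hc₁, hc₂, hn, hw, hqq⟩
    obtain ⟨a, ha0, ha⟩ := hmeet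
    obtain ⟨u, hu0, hu⟩ := hch.root hp hdeg {r | r ∈ 𝔭 ∧ ∃ k, r ∈ 𝒜 k} (fun r hr => hr.2) ha0
      (fun r hr => by rw [← pt_apply]; exact ha r hr.1)
    have hext : ∀ Ψ : R →ₐ[ℂ] MvPolynomial (Fin 2) κ,
        (∀ r ∈ {r | r ∈ 𝔭 ∧ ∃ k, r ∈ 𝒜 k}, eval u (Ψ r) = 0) → Meets Ψ 𝔭 := by
      intro Ψ hΨ
      exact ⟨u, hu0, nf_ext hhom (pt Ψ u).toLinearMap (fun k r hr hr𝔭 => by
        change pt Ψ u r = 0
        rw [pt_apply]
        exact hΨ r ⟨hr𝔭, k, hr⟩)⟩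
    rcases hu with hu | hu
    · exfalso
      refine hno (exists_closed_meets hc₁ (D := D) (fun h => ?_) (hext Ψ₁ hu))
      have h1 := hw D
      rw [pt_apply, h, map_zero] at h1
      exact hwD ((map_eq_zero_iff _ (algebraMap ℂ κ).injective).1 h1.symm)
    · have hD : Ψ₂ D = 0 := by
        by_contra hcon
        exact hno (exists_closed_meets hc₂ hcon (hext Ψ₂ hu))
      rw [hqq, pt_apply, hD, map_zero]

/-- **No good reduction ⇒ lines meet all divisors**, if there is no family of chains of two lines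
through general points and a fixed divisor. -/
theorem meetsAll_one_of_family (hX : IsContactFano 𝒜 P) [IsDomain R] (hdim : 3 ≤ cdim R)
    (hfam : ∀ (q : Ideal R) [q.IsPrime] (S : Set (R →ₐ[ℂ] ℂ)),
      (∀ g : R, g ≠ 0 → ∃ w ∈ S, w g ≠ 0) →
      (∀ w ∈ S, ∃ (κ : Type u) (_ : Field κ) (_ : IsAlgClosed κ) (_ : Algebra ℂ κ)
        (Ψ₁ Ψ₂ : R →ₐ[ℂ] MvPolynomial (Fin 2) κ), IsCurve 𝒜 1 Ψ₁ ∧ IsCurve 𝒜 1 Ψ₂ ∧
        pt Ψ₁ ![0, 1] = pt Ψ₂ ![0, 1] ∧ (∀ r, pt Ψ₁ ![1, 0] r = algebraMap ℂ κ (w r)) ∧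
        ∀ r, r ∈ q ↔ pt Ψ₂ ![1, 0] r = 0) → False)
    (h : ¬ FreeAt 𝒜) : MeetsAll 𝒜 1 := by
  classical
  intro D hD 𝔭 _ hdvr hhom
  by_contra hno
  have := hX.finiteType
  have : IsNoetherianRing R := Algebra.FiniteType.isNoetherianRing ℂ R
  unfold FreeAt at h
  push Not at h
  obtain ⟨g, hg, hbad⟩ := h
  obtain ⟨k₀, hk₀, g₀, hg₀, hg₀0, hg₀𝔭⟩ := nf_exists_homog hX 𝔭 hdvr hhom
  -- the minimal primes over `D`
  have hfin : (Ideal.span {D}).minimalPrimes.Finite :=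
    Ideal.finite_minimalPrimes_of_isNoetherianRing R _
  let S : Ideal R → Set (R →ₐ[ℂ] ℂ) := fun q => {w |
    ∃ (κ : Type u) (_ : Field κ) (_ : IsAlgClosed κ) (_ : Algebra ℂ κ)
        (Ψ₁ Ψ₂ : R →ₐ[ℂ] MvPolynomial (Fin 2) κ), IsCurve 𝒜 1 Ψ₁ ∧ IsCurve 𝒜 1 Ψ₂ ∧
        pt Ψ₁ ![0, 1] = pt Ψ₂ ![0, 1] ∧ (∀ r, pt Ψ₁ ![1, 0] r = algebraMap ℂ κ (w r)) ∧
        ∀ r, r ∈ q ↔ pt Ψ₂ ![1, 0] r = 0}
  have hS : ∀ q : Ideal R, ∃ f : R, f ≠ 0 ∧ (q.IsPrime → ∀ w ∈ S q, w f = 0) := by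
    intro q
    by_cases hq : q.IsPrime
    · by_contra hcon
      push Not at hcon
      refine hfam q (S q) (fun f hf => ?_) (fun w hw => hw)
      obtain ⟨-, w, hw, hwf⟩ := hcon f hf
      exact ⟨w, hw, hwf⟩
    · exact ⟨1, one_ne_zero, fun h => absurd h hq⟩
  choose f hf0 hf using hS
  have hG : g * D * g₀ * ∏ q ∈ hfin.toFinset, f q ≠ 0 :=
    mul_ne_zero (mul_ne_zero (mul_ne_zero hg hD) hg₀0) (Finset.prod_ne_zero_iff.2 fun q _ => hf0 q)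
  obtain ⟨w, hw⟩ := exists_closed_ne hX _ hG
  rw [map_mul, map_mul, map_mul, map_prod] at hw
  have hw1 := right_ne_zero_of_mul hw
  have hw2 := left_ne_zero_of_mul hw
  have hwg₀ := right_ne_zero_of_mul hw2
  have hwD := right_ne_zero_of_mul (left_ne_zero_of_mul hw2)
  have hwg := left_ne_zero_of_mul (left_ne_zero_of_mul hw2)
  obtain ⟨q, hq, ⟨_, hqdvr⟩, hDq, hdata⟩ := nf_point hX hdim (hbad w hwg) hwD 𝔭 hdvr hhom hk₀ hg₀
    hg₀𝔭 hwg₀ hno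
  have hqT : q ∈ (Ideal.span {D}).minimalPrimes := by
    refine ⟨⟨hq, (Ideal.span_singleton_le_iff_mem _).2 hDq⟩, ?_⟩
    rintro q' ⟨hq', hDq'⟩ hle
    rcases eq_bot_or_eq_of_dvr q hqdvr q' hle with h0 | h0
    · exfalso
      have h1 := (Ideal.span_singleton_le_iff_mem _).1 hDq'
      rw [h0, Ideal.mem_bot] at h1
      exact hD h1
    · exact h0.ge
  exact (Finset.prod_ne_zero_iff.1 hw1) q (hfin.mem_toFinset.2 hqT) (hf q hq w hdata)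

end Vale.Agent.P292
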