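import Vale.Agent.P292.K.C1H
import Vale.Agent.P292.K.C4
import Vale.Agent.P292.Bdl.B1

/-! # There is no chain of two lines through a generic point and a point independent of it -/

namespace Vale.Agent.P292

open MvPolynomial

set_option linter.unusedSectionVars false

universe u v w

variable {R : Type u} [CommRing R] [Algebra ℂ R] {𝒜 : ℕ → Submodule ℂ R} [GradedAlgebra 𝒜]
  {P : R →ₗ[ℂ] R →ₗ[ℂ] R}

variable {κ : Type v} [Field κ] [Algebra ℂ κ] {d : ℕ}
  {φ : R →ₐ[ℂ] MvPolynomial (Fin 2) κ}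

/-- two linear maps which agree on homogeneous elements are equal. -/
theorem mm_ext {M : Type*} [AddCommGroup M] [Module ℂ M] {f g : R →ₗ[ℂ] M}
    (h : ∀ k, ∀ r ∈ 𝒜 k, f r = g r) : f = g := by
  classical
  refine LinearMap.ext fun r => ?_
  rw [← DirectSum.sum_support_decompose 𝒜 r, map_sum, map_sum]
  exact Finset.sum_congr rfl fun k _ => h k _ (SetLike.coe_mem _)

/-- the Euler derivation as the value of a partial derivative. -/
theorem mm_evL_pd_one (hφ : IsCurve 𝒜 d φ) (r : R) :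
    evL ![0, 1] (pd φ 1) r = d * pt φ ![0, 1] (euler 𝒜 r) := by
  have h : (evL ![0, 1] (pd φ 1) : R →ₗ[ℂ] κ) =
      (d : ℂ) • ((pt φ ![0, 1]).toLinearMap ∘ₗ euler 𝒜) := by
    refine mm_ext (𝒜 := 𝒜) fun k r hr => ?_
    have h1 := congrArg (eval ![(0 : κ), 1]) (hφ.degree k r hr).sum_X_mul_pderiv
    rw [Fin.sum_univ_two] at h1
    simp only [map_add, map_mul, eval_X, Matrix.cons_val_zero, Matrix.cons_val_one, zero_mul,
      one_mul, zero_add, nsmul_eq_mul, map_natCast] at h1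
    rw [evL_apply, pd_apply, h1]
    change _ = (d : ℂ) • (pt φ ![0, 1]) (euler 𝒜 r)
    rw [euler_apply k r hr, map_smul, pt_apply, Algebra.smul_def, Algebra.smul_def,
      map_natCast, map_natCast]
    push_cast
    ring
  rw [h]
  change (d : ℂ) • (pt φ ![0, 1]) (euler 𝒜 r) = _
  rw [Algebra.smul_def, map_natCast]

theorem mm_evL_pd_zero (hφ : IsCurve 𝒜 d φ) (r : R) :
    evL ![1, 0] (pd φ 0) r = d * pt φ ![1, 0] (euler 𝒜 r) := by
  have h : (evL ![1, 0] (pd φ 0) : R →ₗ[ℂ] κ) =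
      (d : ℂ) • ((pt φ ![1, 0]).toLinearMap ∘ₗ euler 𝒜) := by
    refine mm_ext (𝒜 := 𝒜) fun k r hr => ?_
    have h1 := congrArg (eval ![(1 : κ), 0]) (hφ.degree k r hr).sum_X_mul_pderiv
    rw [Fin.sum_univ_two] at h1
    simp only [map_add, map_mul, eval_X, Matrix.cons_val_zero, Matrix.cons_val_one, zero_mul,
      one_mul, add_zero, nsmul_eq_mul, map_natCast] at h1
    rw [evL_apply, pd_apply, h1]
    change _ = (d : ℂ) • (pt φ ![1, 0]) (euler 𝒜 r)
    rw [euler_apply k r hr, map_smul, pt_apply, Algebra.smul_def, Algebra.smul_def,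
      map_natCast, map_natCast]
    push_cast
    ring
  rw [h]
  change (d : ℂ) • (pt φ ![1, 0]) (euler 𝒜 r) = _
  rw [Algebra.smul_def, map_natCast]

/-- evaluation of the coefficientwise derivation at a point with constant coordinates. -/
theorem mm_eval_mapD (D : Derivation ℂ κ κ) (a : Fin 2 → κ) (ha : ∀ i, D (a i) = 0)
    (p : MvPolynomial (Fin 2) κ) : eval a (mapD D p) = D (eval a p) := by
  induction p using MvPolynomial.induction_on' with
  | monomial m c =>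
    have h1 : mapD D (monomial m c) = monomial m (D c) := by
      ext n
      rw [coeff_mapD, coeff_monomial, coeff_monomial]
      split_ifs <;> simp
    have h2 : D (m.prod fun i k => a i ^ k) = 0 := by
      rw [Finsupp.prod_fintype _ _ (fun i => pow_zero _), Fin.prod_univ_two, Derivation.leibniz,
        Derivation.leibniz_pow, Derivation.leibniz_pow, ha, ha]
      simp
    rw [h1, eval_monomial, eval_monomial, Derivation.leibniz, h2, smul_zero, zero_add, smul_eq_mul,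
      mul_comm]
  | add p q hp hq => rw [map_add, map_add, map_add, map_add, hp, hq]

theorem mm_evL_mapD (D : Derivation ℂ κ κ) (a : Fin 2 → κ) (ha : ∀ i, D (a i) = 0) :
    evL a ((mapD D : Derivation ℂ _ _).toLinearMap ∘ₗ φ.toLinearMap) = alongAt (pt φ a) D := by
  refine LinearMap.ext fun r => ?_
  rw [evL_apply, alongAt_apply, pt_apply]
  exact mm_eval_mapD D a ha (φ r)

theorem mm_D_one_zero (D : Derivation ℂ κ κ) (i : Fin 2) : D ((![1, 0] : Fin 2 → κ) i) = 0 := by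
  fin_cases i <;> simp

theorem mm_D_zero_one (D : Derivation ℂ κ κ) (i : Fin 2) : D ((![0, 1] : Fin 2 → κ) i) = 0 := by
  fin_cases i <;> simp

theorem mm_isDer_evL {e : ℤ} {δ : R →ₗ[ℂ] MvPolynomial (Fin 2) κ} (h : IsHDer 𝒜 d φ e δ)
    (a : Fin 2 → κ) : IsDer (pt φ a) (evL a δ) := fun r s => by
  rw [evL_apply, evL_apply, evL_apply, h.der r s, map_add, map_mul, map_mul, pt_apply, pt_apply]

theorem mm_IsHDer_sub {e : ℤ} {δ δ' : R →ₗ[ℂ] MvPolynomial (Fin 2) κ} (h : IsHDer 𝒜 d φ e δ)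
    (h' : IsHDer 𝒜 d φ e δ') : IsHDer 𝒜 d φ e (δ - δ') where
  der r s := by
    rw [LinearMap.sub_apply, LinearMap.sub_apply, LinearMap.sub_apply, h.der r s, h'.der r s]
    ring
  homog k r hr m hm := by
    rw [LinearMap.sub_apply]
    exact (h.homog k r hr m hm).sub (h'.homog k r hr m hm)
  neg k hk r hr := by
    rw [LinearMap.sub_apply, h.neg k hk r hr, h'.neg k hk r hr, sub_zero]

/-- the infinitesimal reparametrisations of the curve. -/
theorem mm_isHDer_mul_pd (hφ : IsCurve 𝒜 d φ) (c : κ) (i j : Fin 2) :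
    IsHDer 𝒜 d φ 0 ((LinearMap.mulLeft ℂ (C c * X j : MvPolynomial (Fin 2) κ)) ∘ₗ pd φ i) where
  der r s := by
    have h := (isHDer_pd hφ i).der r s
    change (C c * X j) * pd φ i (r * s) = φ r * ((C c * X j) * pd φ i s) +
      φ s * ((C c * X j) * pd φ i r)
    rw [h]
    ring
  homog k r hr m hm := by
    change ((C c * X j) * pd φ i r).IsHomogeneous m
    rcases Nat.eq_zero_or_pos (d * k) with h0 | h0
    · have h1 : pd φ i r = 0 := (isHDer_pd hφ i).neg k (by
        have : ((d * k : ℕ) : ℤ) = d * k := by push_cast; ring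
        omega) r hr
      rw [h1, mul_zero]
      exact isHomogeneous_zero _ _ _
    · have h1 := (isHDer_pd hφ i).homog k r hr (d * k - 1) (by
        have : ((d * k : ℕ) : ℤ) = d * k := by push_cast; ring
        omega)
      have h2 := ((isHomogeneous_C (Fin 2) c).mul (isHomogeneous_X κ j)).mul h1
      have h3 : 0 + 1 + (d * k - 1) = m := by
        have : ((d * k : ℕ) : ℤ) = d * k := by push_cast; ring
        omega
      rwa [h3] at h2
  neg k hk r hr := by
    have : ((d * k : ℕ) : ℤ) = d * k := by push_cast; ring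
    omega

variable [IsAlgClosed κ]

/-- a point of a curve is not the vertex. -/
theorem mm_isNV_pt (hφ : IsCurve 𝒜 d φ) {a : Fin 2 → κ} (ha : a ≠ 0) : IsNV 𝒜 (pt φ a) := by
  obtain ⟨k, hk, r, hr, h⟩ := hφ.bpf a ha
  exact ⟨k, hk, r, hr, by rwa [pt_apply, ← coe_aeval_eq_eval]⟩

theorem mm_one_zero_ne : (![1, 0] : Fin 2 → κ) ≠ 0 := fun h => one_ne_zero (congrFun h 0)

theorem mm_zero_one_ne : (![0, 1] : Fin 2 → κ) ≠ 0 := fun h => one_ne_zero (congrFun h 1)

/-- **No 2-chain.** Two lines with a common point, one through a generic point, the other one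
through a point independent of it (up to scaling). -/
theorem no_two_chain (hX : IsContactFano 𝒜 P) {ψ₁ ψ₂ : R →ₐ[ℂ] MvPolynomial (Fin 2) κ}
    (h₁ : IsCurve 𝒜 1 ψ₁) (h₂ : IsCurve 𝒜 1 ψ₂) (hν : pt ψ₁ ![0, 1] = pt ψ₂ ![0, 1])
    (hgen : ∀ δ, IsDer (pt ψ₁ ![1, 0]) δ → ∃ D : Derivation ℂ κ κ,
      (∀ r, D (pt ψ₁ ![1, 0] r) = δ r) ∧
      ∃ c : κ, ∀ r, D (pt ψ₂ ![1, 0] r) = c * pt ψ₂ ![1, 0] (euler 𝒜 r)) : False := by
  have h10 : (![1, 0] : Fin 2 → κ) ≠ 0 := mm_one_zero_ne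
  have h01 : (![0, 1] : Fin 2 → κ) ≠ 0 := mm_zero_one_ne
  have hnu := mm_isNV_pt h₁ h01
  have hw := mm_isNV_pt h₁ h10
  -- the tangent direction of the first line at the node
  have hpd1 : evL ![0, 1] (pd ψ₁ 1) = evL ![0, 1] (pd ψ₂ 1) := by
    refine LinearMap.ext fun r => ?_
    rw [mm_evL_pd_one h₁, mm_evL_pd_one h₂, hν]
  have key1 : ∀ D : Derivation ℂ κ κ,
      (∃ c : κ, ∀ r, D (pt ψ₂ ![1, 0] r) = c * pt ψ₂ ![1, 0] (euler 𝒜 r)) →
      om P (pt ψ₂ ![0, 1]) (alongAt (pt ψ₂ ![0, 1]) D) (evL ![0, 1] (pd ψ₂ 1)) = 0 := by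
    rintro D ⟨c, hc⟩
    -- the corrected derivation
    have hδ := mm_IsHDer_sub (isHDer_mapD h₂ D) (mm_isHDer_mul_pd h₂ c 0 0)
    set δ : R →ₗ[ℂ] MvPolynomial (Fin 2) κ := (mapD D : Derivation ℂ _ _).toLinearMap ∘ₗ
      ψ₂.toLinearMap - (LinearMap.mulLeft ℂ (C c * X 0 : MvPolynomial (Fin 2) κ)) ∘ₗ pd ψ₂ 0
      with hδdef
    have hδr : ∀ r, δ r = mapD D (ψ₂ r) - C c * X 0 * pderiv 0 (ψ₂ r) := fun r => rfl
    have h0 : ∀ r, eval ![1, 0] (δ r) = 0 := by
      intro r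
      have h1 := mm_evL_pd_zero h₂ r
      rw [evL_apply, pd_apply] at h1
      rw [hδr, map_sub, mm_eval_mapD D _ (mm_D_one_zero D), map_mul, map_mul, eval_C, eval_X, h1]
      have h2 := hc r
      rw [pt_apply] at h2
      rw [h2]
      simp
    obtain ⟨δ', hδ', hmul⟩ := exists_div_X_one h₂ hδ h0
    have h3 := omC_eval hX h₂ hδ' (isHDer_pd h₂ 1) ![0, 1] h01
    rw [omC_eq_zero hX h₂ hδ' (isHDer_pd h₂ 1) (by norm_num), map_zero] at h3
    have h4 : evL ![0, 1] δ' = alongAt (pt ψ₂ ![0, 1]) D := by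
      refine LinearMap.ext fun r => ?_
      have h5 := congrArg (eval ![(0 : κ), 1]) (hmul r)
      rw [hδr, map_sub, mm_eval_mapD D _ (mm_D_zero_one D)] at h5
      simp only [map_mul, eval_X, Matrix.cons_val_zero, Matrix.cons_val_one, mul_zero, zero_mul,
        sub_zero, one_mul] at h5
      rw [evL_apply, alongAt_apply, pt_apply, ← h5]
    rw [← h4]
    exact h3
  -- the pairing on the first line
  have key2 : ∀ δ, IsDer (pt ψ₁ ![1, 0]) δ →
      om P (pt ψ₁ ![1, 0]) δ (evL ![1, 0] (pd ψ₁ 1)) = 0 := by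
    intro δ hδ
    obtain ⟨D, hD, hc⟩ := hgen δ hδ
    have h1 := key1 D hc
    rw [← hν, ← hpd1] at h1
    have h2 := omC_homog hX h₁ (isHDer_mapD h₁ D) (isHDer_pd h₁ 1) (m := 0) (by norm_num)
    have h3 := totalDegree_eq_zero_iff_eq_C.1 (Nat.le_zero.1 h2.totalDegree_le)
    have h4 := omC_eval hX h₁ (isHDer_mapD h₁ D) (isHDer_pd h₁ 1) ![0, 1] h01
    have h5 := omC_eval hX h₁ (isHDer_mapD h₁ D) (isHDer_pd h₁ 1) ![1, 0] h10
    rw [h3, eval_C, mm_evL_mapD D _ (mm_D_zero_one D), h1] at h4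
    rw [h3, eval_C, mm_evL_mapD D _ (mm_D_one_zero D), ← h4] at h5
    have h6 : alongAt (pt ψ₁ ![1, 0]) D = δ := LinearMap.ext hD
    rwa [h6] at h5
  have key3 : evL ![1, 0] (pd ψ₁ 1) = 0 :=
    eq_zero_of_om' hX hw (mm_isDer_evL (isHDer_pd h₁ 1) ![1, 0]) key2
  -- the partial derivative is divisible by every power of the second variable
  have key4 : ∀ n : ℕ, ∃ δ : R →ₗ[ℂ] MvPolynomial (Fin 2) κ, IsHDer 𝒜 1 ψ₁ (-1 - n) δ ∧
      (∀ r, eval ![1, 0] (δ r) = 0) ∧ ∀ r, pd ψ₁ 1 r = X 1 ^ n * δ r := by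
    intro n
    induction n with
    | zero =>
      refine ⟨pd ψ₁ 1, by simpa using isHDer_pd h₁ 1, fun r => ?_, fun r => by simp⟩
      rw [← evL_apply, key3]
      rfl
    | succ n ih =>
      obtain ⟨δ, hδ, h0, hm⟩ := ih
      obtain ⟨δ', hδ', hm'⟩ := exists_div_X_one h₁ hδ h0
      refine ⟨δ', ?_, fun r => ?_, fun r => ?_⟩
      · have e : (-1 - (n : ℤ)) - 1 = -1 - ((n + 1 : ℕ) : ℤ) := by push_cast; ring
        rwa [e] at hδ'
      · have h2 : evL ![1, 0] δ' = 0 := by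
          refine eq_zero_of_om' hX hw (mm_isDer_evL hδ' ![1, 0]) fun η hη => ?_
          obtain ⟨D, hD, -⟩ := hgen η hη
          have h5 := omC_eval hX h₁ (isHDer_mapD h₁ D) hδ' ![1, 0] h10
          rw [omC_eq_zero hX h₁ (isHDer_mapD h₁ D) hδ' (by push_cast; linarith), map_zero,
            mm_evL_mapD D _ (mm_D_one_zero D)] at h5
          have h6 : alongAt (pt ψ₁ ![1, 0]) D = η := LinearMap.ext hD
          rwa [h6] at h5
        rw [← evL_apply, h2]
        rfl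
      · rw [hm, hm', pow_succ, mul_assoc]
  obtain ⟨k, hk, r, hr, hne⟩ := h₁.bpf ![0, 1] h01
  obtain ⟨δ, hδ, -, hm⟩ := key4 k
  have h7 : pd ψ₁ 1 r = 0 := by
    rw [hm, hδ.neg k (by push_cast; linarith) r hr, mul_zero]
  have h8 := mm_evL_pd_one h₁ r
  rw [evL_apply, h7, map_zero, euler_apply k r hr, map_smul, pt_apply, Algebra.smul_def] at h8
  rw [aeval_eq_eval] at hne
  have h9 : (algebraMap ℂ κ (k : ℂ)) ≠ 0 := by
    rw [Ne, map_eq_zero_iff _ (algebraMap ℂ κ).injective]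
    exact_mod_cast hk.ne'
  exact (mul_ne_zero (by simp) (mul_ne_zero h9 hne)) h8.symm

end Vale.Agent.P292
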