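import Vale.Agent.P292.K.Asm
import Vale.Agent.P292.MM.I2G
import Vale.Agent.P292.MM.NotFree
import Vale.Agent.P292.MM.Family
import Vale.Agent.P292.Meet.Two

/-! # Conic-connected contact Fano manifolds are adjoint varieties -/

namespace Vale.Agent.P292

open MvPolynomial TensorProduct

universe u

variable {R : Type u} [CommRing R] [Algebra ℂ R] {𝒜 : ℕ → Submodule ℂ R} [GradedAlgebra 𝒜]
  {P : R →ₗ[ℂ] R →ₗ[ℂ] R}

/-- If the generic conics degenerate over divisors, then closed lines meet all divisors. -/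
theorem meetsAll_one_of_not_freeAt (hX : IsContactFano 𝒜 P) [IsDomain R] (hdim : 3 ≤ cdim R)
    (h : ¬ FreeAt 𝒜) : MeetsAll 𝒜 1 :=
  meetsAll_one_of_family hX hdim (fun q _ S hS h => no_chain_family hX q S hS h) h

/-- The dichotomy. -/
theorem meets_dichotomy (hX : IsContactFano 𝒜 P) [IsDomain R] (hdim : 3 ≤ cdim R)
    (hc : IsConicConnected 𝒜) : MeetsAll 𝒜 1 ∨ FreeAt 𝒜 ∧ MeetsAll 𝒜 2 := by
  by_cases h : FreeAt 𝒜
  · exact Or.inr ⟨h, meetsAll_two hX hdim hc⟩
  · exact Or.inl (meetsAll_one_of_not_freeAt hX hdim h)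

/-- **Conic-connected contact Fano manifolds are adjoint varieties.** -/
theorem isAdjointVariety_of_isConicConnected (hX : IsContactFano 𝒜 P) [IsDomain R]
    (hdim : 3 ≤ cdim R) (hc : IsConicConnected 𝒜) : IsAdjointVariety 𝒜 P := by
  rcases meets_dichotomy hX hdim hc with h1 | ⟨hfree, h2⟩
  · exact asm_one hX hc h1
  · obtain ⟨g, hg, hgen⟩ := asm_exists_genConicAt hX hc
    obtain ⟨w, hw, hgood⟩ := hfree g hg
    obtain ⟨Ω, _, _, _, φ, hφ⟩ := hgen w hw
    obtain ⟨b, hb⟩ := exists_b hX hφ.curve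
    obtain ⟨q, hq, hqr⟩ := exists_isGood_two_of_goodAt hX hφ hb hgood
    exact asm_two hX hφ hb hq hqr h2

end Vale.Agent.P292
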