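import Vale.Agent.P292.MM.Chain2
import Vale.Agent.P292.K.DerExt
import Vale.Agent.P292.K.N2c

/-! # No line joins a closed point to the generic point of a divisor -/

namespace Vale.Agent.P292

open MvPolynomial Matrix

universe u v w

set_option linter.unusedSectionVars false

variable {R : Type u} [CommRing R] [Algebra ℂ R] {𝒜 : ℕ → Submodule ℂ R} [GradedAlgebra 𝒜]
  {P : R →ₗ[ℂ] R →ₗ[ℂ] R}

/-- A local generator of a prime whose localisation is a discrete valuation ring. -/
theorem mm_exists_local_gen [IsDomain R] (p : Ideal R) [p.IsPrime]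
    (hdvr : IsDiscreteValuationRing (Localization.AtPrime p)) :
    ∃ π ∈ p, ∀ c ∈ p, ∃ v u, v ∉ p ∧ v * c = π * u := by
  let L := Localization.AtPrime p
  obtain ⟨ϖ, hϖ⟩ := IsDiscreteValuationRing.exists_irreducible L
  have hmax := (IsDiscreteValuationRing.irreducible_iff_uniformizer ϖ).mp hϖ
  obtain ⟨⟨π, s⟩, hπ⟩ := IsLocalization.surj p.primeCompl ϖ
  have hinj : Function.Injective (algebraMap R L) :=
    IsLocalization.injective L (Ideal.primeCompl_le_nonZeroDivisors p)
  have hπp : π ∈ p := by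
    have h1 : algebraMap R L π ∈ IsLocalRing.maximalIdeal L := by
      rw [← hπ]
      refine Ideal.mul_mem_right _ _ ?_
      rw [hmax]
      exact Ideal.mem_span_singleton_self _
    have h2 := IsLocalization.AtPrime.to_map_mem_maximal_iff L p π
    exact h2.mp h1
  refine ⟨π, hπp, fun c hc => ?_⟩
  have h1 : algebraMap R L c ∈ IsLocalRing.maximalIdeal L :=
    (IsLocalization.AtPrime.to_map_mem_maximal_iff L p c).mpr hc
  rw [hmax, Ideal.mem_span_singleton'] at h1
  obtain ⟨z, hz⟩ := h1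
  obtain ⟨⟨u, t⟩, hu⟩ := IsLocalization.surj p.primeCompl z
  refine ⟨s * t, u, ?_, ?_⟩
  · intro h2
    rcases (inferInstance : p.IsPrime).mem_or_mem h2 with h3 | h3
    · exact s.2 h3
    · exact t.2 h3
  · apply hinj
    rw [map_mul, map_mul, map_mul, ← hz, ← hu, ← hπ]
    ring

/-- Derivations over a point with kernel `p`, killing a local generator of `p`, extend to
derivations of the field. -/
theorem mm_exists_der_of_gen (p : Ideal R) [p.IsPrime] {π : R} (hπ : π ∈ p)
    (hgen : ∀ c ∈ p, ∃ v u, v ∉ p ∧ v * c = π * u) {κ : Type v} [Field κ] [Algebra ℂ κ]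
    (y : R →ₐ[ℂ] κ) (hy : ∀ r, r ∈ p ↔ y r = 0) {δ : R →ₗ[ℂ] κ} (hδ : IsDer y δ)
    (h0 : δ π = 0) : ∃ D : Derivation ℂ κ κ, alongAt y D = δ := by
  have hp0 : ∀ c ∈ p, δ c = 0 := by
    intro c hc
    obtain ⟨v, u, hv, hvu⟩ := hgen c hc
    have h1 := hδ v c
    rw [hvu, hδ π u, (hy π).1 hπ, h0, (hy c).1 hc] at h1
    have h2 : y v * δ c = 0 := by
      rw [mul_zero, zero_mul, zero_mul, zero_add, add_zero] at h1
      exact h1.symm
    exact (mul_eq_zero.1 h2).resolve_left fun h => hv ((hy v).2 h)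
  let mk : R →ₐ[ℂ] R ⧸ p := Ideal.Quotient.mkₐ ℂ p
  have hmk : Function.Surjective mk := Ideal.Quotient.mkₐ_surjective ℂ p
  have hmk0 : ∀ r, mk r = 0 ↔ r ∈ p := fun r => Ideal.Quotient.eq_zero_iff_mem
  obtain ⟨s, hs⟩ := LinearMap.exists_rightInverse_of_surjective mk.toLinearMap
    (LinearMap.range_eq_top.2 hmk)
  have hs' : ∀ b, mk (s b) = b := fun b => LinearMap.congr_fun hs b
  let q : R ⧸ p →ₐ[ℂ] κ := Ideal.Quotient.liftₐ p y (fun r hr => (hy r).1 hr)
  have hq : ∀ r, q (mk r) = y r := fun r => rfl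
  have hqinj : Function.Injective q := by
    rw [injective_iff_map_eq_zero]
    intro b hb
    obtain ⟨r, rfl⟩ := hmk b
    rw [hq] at hb
    exact (hmk0 r).2 ((hy r).2 hb)
  let δ' : R ⧸ p →ₗ[ℂ] κ := δ ∘ₗ s
  have hδ' : ∀ r, δ' (mk r) = δ r := by
    intro r
    have h1 : s (mk r) - r ∈ p := by
      rw [← hmk0, map_sub, hs', sub_self]
    have h2 := hp0 _ h1
    rw [map_sub, sub_eq_zero] at h2
    exact h2
  have hder : IsDer q δ' := by
    intro a b
    obtain ⟨r, rfl⟩ := hmk a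
    obtain ⟨t, rfl⟩ := hmk b
    rw [← map_mul, hδ', hδ', hδ', hq, hq, hδ]
  obtain ⟨D, hD⟩ := exists_derivation_of_isDer hqinj hder
  refine ⟨D, LinearMap.ext fun r => ?_⟩
  rw [alongAt_apply, ← hq, ← hδ', ← hD, alongAt_apply]

/-- The tangent space of a divisor is not isotropic. -/
theorem mm_not_isotropic (hX : IsContactFano 𝒜 P) [IsDomain R] (hdim : 3 ≤ cdim R)
    {κ : Type v} [Field κ] [Algebra ℂ κ] {y : R →ₐ[ℂ] κ} (hnv : IsNV 𝒜 y)
    (p : Ideal R) [p.IsPrime] (hdvr : IsDiscreteValuationRing (Localization.AtPrime p))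
    (hy : ∀ r, r ∈ p ↔ y r = 0)
    (hiso : ∀ D D' : Derivation ℂ κ κ, om P y (alongAt y D) (alongAt y D') = 0) : False := by
  classical
  obtain ⟨π, hπ, hgen⟩ := mm_exists_local_gen p hdvr
  have hnv' := hnv
  obtain ⟨k, hk, r, hr, hry⟩ := hnv'
  obtain ⟨N, x, g, h, hF, hg⟩ := exists_frame_of_point hX y hk hr hry
  rw [map_mul] at hg
  have hg0 : g ≠ 0 := by
    rintro rfl
    rw [map_zero, zero_mul] at hg
    exact hg rfl
  have hN : 3 ≤ N := hdim.trans (cdim_le_of_isFrame hF hg0)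
  have hdet : y (brMat P x).det ≠ 0 := right_ne_zero_of_mul hg
  have hiso' : ∀ δ δ', IsDer y δ → IsDer y δ' → δ π = 0 → δ' π = 0 → om P y δ δ' = 0 := by
    intro δ δ' h1 h2 h3 h4
    obtain ⟨D, hD⟩ := mm_exists_der_of_gen p hπ hgen y hy h1 h3
    obtain ⟨D', hD'⟩ := mm_exists_der_of_gen p hπ hgen y hy h2 h4
    rw [← hD, ← hD']
    exact hiso D D'
  let M : Matrix (Fin N) (Fin N) κ := Matrix.of fun i j => y (P (x i) (x j))
  have hMij : ∀ i j, M i j = y (P (x i) (x j)) := fun i j => rfl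
  let v : Fin N → κ := fun i => y (P (x i) π)
  have hMdet : M.det ≠ 0 := by
    have : M = (y : R →+* κ).mapMatrix (brMat P x) := by
      ext i j; rfl
    rw [this, ← RingHom.map_det]
    exact hdet
  have hham : ∀ i, IsDer y (hamAt P y (x i)) := fun i => isDer_hamAt hX y (x i)
  have hskew : ∀ i j, M i j = - M j i := by
    intro i j
    rw [hMij, hMij, hX.skew, map_neg]
  have hM0 : ∀ i, M i i = 0 := by
    intro i
    rw [hMij, hX.alternating, map_zero]
  by_cases hv : ∃ a, v a ≠ 0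
  · obtain ⟨a, ha⟩ := hv
    have hkey : ∀ i j, v a * M j i = v j * M a i + M j a * v i := by
      intro i j
      have h1 : IsDer y (v a • hamAt P y (x i) - v i • hamAt P y (x a)) :=
        (DerAt y).sub_mem ((DerAt y).smul_mem _ (hham i)) ((DerAt y).smul_mem _ (hham a))
      have h2 : IsDer y (v a • hamAt P y (x j) - v j • hamAt P y (x a)) :=
        (DerAt y).sub_mem ((DerAt y).smul_mem _ (hham j)) ((DerAt y).smul_mem _ (hham a))
      have h3 := hiso' _ _ h1 h2 (by
        rw [LinearMap.sub_apply, LinearMap.smul_apply, LinearMap.smul_apply, hamAt_apply,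
          hamAt_apply, smul_eq_mul, smul_eq_mul]
        change v a * v i - v i * v a = 0
        ring) (by
        rw [LinearMap.sub_apply, LinearMap.smul_apply, LinearMap.smul_apply, hamAt_apply,
          hamAt_apply, smul_eq_mul, smul_eq_mul]
        change v a * v j - v j * v a = 0
        ring)
      rw [om_sub_left hX hnv ((DerAt y).smul_mem _ (hham i)) ((DerAt y).smul_mem _ (hham a)) h2,
        om_smul_left hX hnv (hham i) h2, om_smul_left hX hnv (hham a) h2,
        om_ham hX hnv h2, om_ham hX hnv h2] at h3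
      simp only [LinearMap.sub_apply, LinearMap.smul_apply, hamAt_apply, smul_eq_mul] at h3
      rw [← hMij, ← hMij, ← hMij, ← hMij, hM0 a] at h3
      have h4 : v a * (v a * M j i) = v a * (v j * M a i + M j a * v i) := by
        linear_combination h3
      exact mul_left_cancel₀ ha h4
    obtain ⟨z, hz0, hz⟩ : ∃ z : Fin N → κ, z ≠ 0 ∧
        (Matrix.of ![v, fun j => M a j]).mulVec z = 0 := by
      have h1 : LinearMap.ker (Matrix.of ![v, fun j => M a j]).mulVecLin ≠ ⊥ :=
        LinearMap.ker_ne_bot_of_finrank_lt (by simp; omega)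
      obtain ⟨z, hz, hz0⟩ := Submodule.exists_mem_ne_zero_of_ne_bot h1
      exact ⟨z, hz0, hz⟩
    have hz1 : v ⬝ᵥ z = 0 := congrFun hz 0
    have hz2 : (fun j => M a j) ⬝ᵥ z = 0 := congrFun hz 1
    apply hz0
    refine Matrix.eq_zero_of_mulVec_eq_zero hMdet ?_
    ext j
    have h5 : v a * (M.mulVec z) j = 0 := by
      rw [Matrix.mulVec, dotProduct, Finset.mul_sum]
      have h6 : ∀ i, v a * (M j i * z i) = v j * (M a i * z i) + M j a * (v i * z i) := by
        intro i
        linear_combination z i * hkey i j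
      simp only [h6]
      rw [Finset.sum_add_distrib, ← Finset.mul_sum, ← Finset.mul_sum]
      change v j * ((fun i => M a i) ⬝ᵥ z) + M j a * (v ⬝ᵥ z) = 0
      rw [hz1, hz2, mul_zero, mul_zero, add_zero]
    exact (mul_eq_zero.1 h5).resolve_left ha
  · push Not at hv
    have hMz : M = 0 := by
      ext i j
      have h1 := hiso' _ _ (hham i) (hham j) (hv i) (hv j)
      rw [om_ham hX hnv (hham j), hamAt_apply, ← hMij] at h1
      rw [hskew, h1, neg_zero]
      rfl
    apply hMdet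
    rw [hMz]
    have : Nonempty (Fin N) := ⟨⟨0, by omega⟩⟩
    exact Matrix.det_zero

/-- **No line joins a closed point to the generic point of a divisor.** -/
theorem no_line_to_divisor (hX : IsContactFano 𝒜 P) [IsDomain R] (hdim : 3 ≤ cdim R)
    {κ : Type v} [Field κ] [IsAlgClosed κ] [Algebra ℂ κ] {ψ : R →ₐ[ℂ] MvPolynomial (Fin 2) κ}
    (hψ : IsCurve 𝒜 1 ψ) (w : R →ₐ[ℂ] ℂ) (hw : ∀ r, pt ψ ![1, 0] r = algebraMap ℂ κ (w r))
    (p : Ideal R) [p.IsPrime] (hdvr : IsDiscreteValuationRing (Localization.AtPrime p))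
    (hp : ∀ r, r ∈ p ↔ pt ψ ![0, 1] r = 0) : False := by
  have h01 : (![0, 1] : Fin 2 → κ) ≠ 0 := mm_zero_one_ne
  have key : ∀ D : Derivation ℂ κ κ, ∃ δ' : R →ₗ[ℂ] MvPolynomial (Fin 2) κ,
      IsHDer 𝒜 1 ψ (0 - 1) δ' ∧ evL ![0, 1] δ' = alongAt (pt ψ ![0, 1]) D := by
    intro D
    have h0 : ∀ r, eval ![1, 0] (((mapD D : Derivation ℂ _ _).toLinearMap ∘ₗ
        ψ.toLinearMap) r) = 0 := by
      intro r
      change eval ![1, 0] (mapD D (ψ r)) = 0
      rw [mm_eval_mapD D _ (mm_D_one_zero D), ← pt_apply, hw]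
      exact D.map_algebraMap _
    obtain ⟨δ', hδ', hmul⟩ := exists_div_X_one hψ (isHDer_mapD hψ D) h0
    refine ⟨δ', hδ', LinearMap.ext fun r => ?_⟩
    have h5 := congrArg (eval ![(0 : κ), 1]) (hmul r)
    change eval ![0, 1] (mapD D (ψ r)) = _ at h5
    rw [mm_eval_mapD D _ (mm_D_zero_one D)] at h5
    simp only [map_mul, eval_X, Matrix.cons_val_one] at h5
    rw [evL_apply, alongAt_apply, pt_apply, h5]
    simp
  refine mm_not_isotropic hX hdim (mm_isNV_pt hψ h01) p hdvr hp fun D D' => ?_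
  obtain ⟨δ, hδ, hδe⟩ := key D
  obtain ⟨δ', hδ', hδe'⟩ := key D'
  have h1 := omC_eval hX hψ hδ hδ' ![0, 1] h01
  rw [omC_eq_zero hX hψ hδ hδ' (by norm_num), map_zero, hδe, hδe'] at h1
  exact h1

end Vale.Agent.P292
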