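import Vale.Agent.P292.MM.Chain2
import Vale.Agent.P292.K.N2c
import Vale.Agent.P292.K.Ext

/-! # There is no line through a closed point and the generic point of a divisor. -/

namespace Vale.Agent.P292

open MvPolynomial

universe u v

variable {R : Type u} [CommRing R] [Algebra ℂ R]

/-- A derivation over `y` which kills the kernel of `y` comes from a derivation of the field. -/
theorem lwq_exists_D {κ : Type v} [Field κ] [Algebra ℂ κ] (y : R →ₐ[ℂ] κ) {δ : R →ₗ[ℂ] κ}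
    (hδ : IsDer y δ) (h : ∀ r, y r = 0 → δ r = 0) :
    ∃ D : Derivation ℂ κ κ, ∀ r, D (y r) = δ r := by
  let I : Ideal R := RingHom.ker y
  have hI : I.IsPrime := RingHom.ker_isPrime _
  let g : R ⧸ I →ₐ[ℂ] κ := Ideal.Quotient.liftₐ I y (fun a ha => ha)
  have hgm : ∀ r, g (Ideal.Quotient.mk I r) = y r := fun r => rfl
  have hg : Function.Injective g := by
    rw [injective_iff_map_eq_zero]
    intro a ha
    obtain ⟨r, rfl⟩ := Ideal.Quotient.mk_surjective a
    rw [Ideal.Quotient.eq_zero_iff_mem]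
    exact ha
  let δ' : (R ⧸ I) →ₗ[ℂ] κ := ((I.restrictScalars ℂ).liftQ δ (fun r hr => h r hr)) ∘ₗ
    (Submodule.Quotient.restrictScalarsEquiv ℂ I).symm.toLinearMap
  have hδ' : ∀ r, δ' (Ideal.Quotient.mk I r) = δ r := fun r => rfl
  let _ := g.toRingHom.toAlgebra
  have : IsScalarTower ℂ (R ⧸ I) κ := IsScalarTower.of_algebraMap_eq fun c => (g.commutes c).symm
  have : CharZero κ := charZero_of_injective_algebraMap (algebraMap ℂ κ).injective
  let d : Derivation ℂ (R ⧸ I) κ := Derivation.mk' δ' (fun a b => by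
    obtain ⟨r, rfl⟩ := Ideal.Quotient.mk_surjective a
    obtain ⟨s, rfl⟩ := Ideal.Quotient.mk_surjective b
    rw [← map_mul, hδ', hδ', hδ', hδ r s]
    rfl)
  obtain ⟨D, hD⟩ := exists_derivation_extend (k := ℂ) (A := R ⧸ I) (E := κ) hg d
  exact ⟨D, fun r => (hD (Ideal.Quotient.mk I r)).trans (hδ' r)⟩

variable {𝒜 : ℕ → Submodule ℂ R} [GradedAlgebra 𝒜] {P : R →ₗ[ℂ] R →ₗ[ℂ] R}

omit [Algebra ℂ R] in
/-- A uniformizer of a height one prime. -/
theorem lwq_uniformizer [IsDomain R] (p : Ideal R) [p.IsPrime]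
    (hdvr : IsDiscreteValuationRing (Localization.AtPrime p)) :
    ∃ π ∈ p, ∀ c ∈ p, ∃ v u, v ∉ p ∧ v * c = π * u := by
  let L := Localization.AtPrime p
  obtain ⟨ϖ, hϖ⟩ := IsDiscreteValuationRing.exists_irreducible L
  have hmax := (IsDiscreteValuationRing.irreducible_iff_uniformizer ϖ).mp hϖ
  obtain ⟨⟨π, s⟩, hπ⟩ := IsLocalization.surj p.primeCompl ϖ
  have hinj : Function.Injective (algebraMap R L) :=
    IsLocalization.injective L (Ideal.primeCompl_le_nonZeroDivisors p)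
  have hπp : π ∈ p := by
    have h1 : algebraMap R L π ∈ IsLocalRing.maximalIdeal L := by
      rw [← hπ]
      refine Ideal.mul_mem_right _ _ ?_
      rw [hmax]
      exact Ideal.mem_span_singleton_self _
    have h2 := IsLocalization.AtPrime.to_map_mem_maximal_iff L p π
    exact h2.mp h1
  refine ⟨π, hπp, fun c hc => ?_⟩
  have h1 : algebraMap R L c ∈ IsLocalRing.maximalIdeal L :=
    (IsLocalization.AtPrime.to_map_mem_maximal_iff L p c).mpr hc
  rw [hmax, Ideal.mem_span_singleton'] at h1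
  obtain ⟨z, hz⟩ := h1
  obtain ⟨⟨u, t⟩, hu⟩ := IsLocalization.surj p.primeCompl z
  refine ⟨s * t, u, ?_, ?_⟩
  · intro h2
    rcases (inferInstance : p.IsPrime).mem_or_mem h2 with h3 | h3
    · exact s.2 h3
    · exact t.2 h3
  · apply hinj
    rw [map_mul, map_mul, map_mul, ← hz, ← hu, ← hπ]
    ring

section

variable {κ : Type v} [Field κ] [IsAlgClosed κ] [Algebra ℂ κ]
  {Ψ : R →ₐ[ℂ] MvPolynomial (Fin 2) κ}

/-- The tangent vectors of the family of lines through a fixed point are isotropic. -/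
theorem lwq_om (hX : IsContactFano 𝒜 P) (hΨ : IsCurve 𝒜 1 Ψ) (D₁ D₂ : Derivation ℂ κ κ)
    (h₁ : ∀ r, D₁ (pt Ψ ![1, 0] r) = 0) (h₂ : ∀ r, D₂ (pt Ψ ![1, 0] r) = 0) :
    om P (pt Ψ ![0, 1]) (alongAt (pt Ψ ![0, 1]) D₁) (alongAt (pt Ψ ![0, 1]) D₂) = 0 := by
  have key : ∀ D : Derivation ℂ κ κ, (∀ r, D (pt Ψ ![1, 0] r) = 0) →
      ∃ δ', IsHDer 𝒜 1 Ψ (0 - 1) δ' ∧ evL ![0, 1] δ' = alongAt (pt Ψ ![0, 1]) D := by
    intro D hD
    have hδ := isHDer_mapD hΨ D
    obtain ⟨δ', hδ', hmul⟩ := exists_div_X_one hΨ hδ (fun r => by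
      change eval ![1, 0] (mapD D (Ψ r)) = 0
      rw [mm_eval_mapD D _ (mm_D_one_zero D), ← pt_apply]
      exact hD r)
    refine ⟨δ', hδ', LinearMap.ext fun r => ?_⟩
    have h5 := congrArg (eval ![(0 : κ), 1]) (hmul r)
    change eval ![0, 1] (mapD D (Ψ r)) = _ at h5
    rw [mm_eval_mapD D _ (mm_D_zero_one D)] at h5
    rw [evL_apply, alongAt_apply, pt_apply, h5]
    simp
  obtain ⟨δ₁, hδ₁, e₁⟩ := key D₁ h₁
  obtain ⟨δ₂, hδ₂, e₂⟩ := key D₂ h₂
  rw [← e₁, ← e₂, omC_eval hX hΨ hδ₁ hδ₂ ![0, 1] mm_zero_one_ne,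
    omC_eq_zero hX hΨ hδ₁ hδ₂ (by norm_num), map_zero]

/-- **There is no line through a closed point and the generic point of a divisor.** -/
theorem no_line_to_dvr (hX : IsContactFano 𝒜 P) [IsDomain R] (hdim : 3 ≤ cdim R)
    (hΨ : IsCurve 𝒜 1 Ψ) (w : R →ₐ[ℂ] ℂ) (hw : ∀ r, pt Ψ ![1, 0] r = algebraMap ℂ κ (w r))
    (q : Ideal R) [q.IsPrime] (hdvr : IsDiscreteValuationRing (Localization.AtPrime q))
    (hq : ∀ r, r ∈ q ↔ pt Ψ ![0, 1] r = 0) : False := by
  classical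
  set y : R →ₐ[ℂ] κ := pt Ψ ![0, 1] with hy
  have hnv : IsNV 𝒜 y := mm_isNV_pt hΨ mm_zero_one_ne
  obtain ⟨k, hk, r₀, hr₀, hyr₀⟩ := id hnv
  obtain ⟨N, x, g, c₀, hF, hdet⟩ := exists_frame_of_point hX y hk hr₀ hyr₀
  rw [map_mul] at hdet
  have hg : g ≠ 0 := by
    rintro rfl
    rw [map_zero, zero_mul] at hdet
    exact hdet rfl
  have hN : 3 ≤ N := hdim.trans (cdim_le_of_isFrame hF hg)
  have hdet' : y (brMat P x).det ≠ 0 := right_ne_zero_of_mul hdet
  let M : Matrix (Fin N) (Fin N) κ := Matrix.of fun i j => y (P (x i) (x j))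
  have hMdet : M.det ≠ 0 := by
    have : M = (y : R →+* κ).mapMatrix (brMat P x) := by
      ext i j; rfl
    rw [this, ← RingHom.map_det]
    exact hdet'
  obtain ⟨π, hπ, hπq⟩ := lwq_uniformizer q hdvr
  -- derivations over `y` which kill the uniformizer are isotropic
  have hkill : ∀ δ : R →ₗ[ℂ] κ, IsDer y δ → δ π = 0 →
      ∃ D : Derivation ℂ κ κ, ∀ r, D (y r) = δ r := by
    intro δ hδ h0
    refine lwq_exists_D y hδ fun c hc => ?_
    obtain ⟨v, u, hv, hvu⟩ := hπq c ((hq c).2 hc)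
    have h1 := hδ v c
    rw [hvu, hδ π u, (hq π).1 hπ, h0, hc] at h1
    have h2 : y v ≠ 0 := fun h => hv ((hq v).2 h)
    have h3 : y v * δ c = 0 := by linear_combination -h1
    exact (mul_eq_zero.1 h3).resolve_left h2
  have hiso : ∀ δ₁ δ₂ : R →ₗ[ℂ] κ, IsDer y δ₁ → IsDer y δ₂ → δ₁ π = 0 → δ₂ π = 0 →
      om P y δ₁ δ₂ = 0 := by
    intro δ₁ δ₂ h₁ h₂ e₁ e₂
    obtain ⟨D₁, hD₁⟩ := hkill δ₁ h₁ e₁
    obtain ⟨D₂, hD₂⟩ := hkill δ₂ h₂ e₂
    have h := lwq_om hX hΨ D₁ D₂ (fun r => by rw [hw, Derivation.map_algebraMap])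
      (fun r => by rw [hw, Derivation.map_algebraMap])
    have a₁ : alongAt y D₁ = δ₁ := LinearMap.ext hD₁
    have a₂ : alongAt y D₂ = δ₂ := LinearMap.ext hD₂
    rwa [← hy, a₁, a₂] at h
  have hMskew : ∀ i j, M i j = - M j i := fun i j => by
    change y (P (x i) (x j)) = - y (P (x j) (x i))
    rw [hX.skew, map_neg]
  by_cases hc : ∀ i, y (P (x i) π) = 0
  · have hM0 : M = 0 := by
      ext i j
      have h1 := hiso (hamAt P y (x j)) (hamAt P y (x i)) (isDer_hamAt hX y _) (isDer_hamAt hX y _)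
        (hc j) (hc i)
      rw [om_ham hX hnv (isDer_hamAt hX y _)] at h1
      exact h1
    have : Nonempty (Fin N) := ⟨⟨0, by omega⟩⟩
    rw [hM0, Matrix.det_zero] at hMdet
    exact hMdet rfl
  · push Not at hc
    obtain ⟨i₀, hi₀⟩ := hc
    set c : Fin N → κ := fun i => y (P (x i) π) with hcdef
    have hci : c i₀ ≠ 0 := hi₀
    have hder : ∀ i, IsDer y (c i₀ • hamAt P y (x i) - c i • hamAt P y (x i₀)) := fun i =>
      (DerAt y).sub_mem ((DerAt y).smul_mem _ (isDer_hamAt hX y _))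
        ((DerAt y).smul_mem _ (isDer_hamAt hX y _))
    have hrel : ∀ i j, c i₀ * M j i = c j * M i₀ i + c i * M j i₀ := by
      intro i j
      have h1 := hiso _ _ (hder i) (hder j) (by
        change c i₀ * y (P (x i) π) - c i * y (P (x i₀) π) = 0
        rw [hcdef]; ring) (by
        change c i₀ * y (P (x j) π) - c j * y (P (x i₀) π) = 0
        rw [hcdef]; ring)
      rw [om_sub_left hX hnv ((DerAt y).smul_mem _ (isDer_hamAt hX y _))
        ((DerAt y).smul_mem _ (isDer_hamAt hX y _)) (hder j),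
        om_smul_left hX hnv (isDer_hamAt hX y _) (hder j),
        om_smul_left hX hnv (isDer_hamAt hX y _) (hder j),
        om_ham hX hnv (hder j), om_ham hX hnv (hder j)] at h1
      have h2 : c i₀ * (c i₀ * M j i - c j * M i₀ i) - c i * (c i₀ * M j i₀ - c j * M i₀ i₀) = 0 :=
        h1
      have h3 : M i₀ i₀ = 0 := by
        change y (P (x i₀) (x i₀)) = 0
        rw [hX.alternating, map_zero]
      rw [h3] at h2
      have h4 : c i₀ * (c i₀ * M j i - c j * M i₀ i - c i * M j i₀) = 0 := by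
        linear_combination h2
      have h5 := (mul_eq_zero.1 h4).resolve_left hci
      linear_combination h5
    obtain ⟨z, hz0, hz⟩ : ∃ z : Fin N → κ, z ≠ 0 ∧
        (Matrix.of ![c, fun j => M i₀ j]).mulVec z = 0 := by
      have h1 : LinearMap.ker (Matrix.of ![c, fun j => M i₀ j]).mulVecLin ≠ ⊥ :=
        LinearMap.ker_ne_bot_of_finrank_lt (by simp; omega)
      obtain ⟨z, hz, hz0⟩ := Submodule.exists_mem_ne_zero_of_ne_bot h1
      exact ⟨z, hz0, hz⟩
    have hz1 : ∑ j, c j * z j = 0 := congrFun hz 0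
    have hz2 : ∑ j, M i₀ j * z j = 0 := congrFun hz 1
    apply hz0
    refine Matrix.eq_zero_of_mulVec_eq_zero hMdet ?_
    ext j
    change ∑ i, M j i * z i = 0
    have h6 : c i₀ * ∑ i, M j i * z i = 0 := by
      rw [Finset.mul_sum]
      have h7 : ∀ i ∈ Finset.univ, c i₀ * (M j i * z i) =
          c j * (M i₀ i * z i) + M j i₀ * (c i * z i) := fun i _ => by
        linear_combination z i * hrel i j
      rw [Finset.sum_congr rfl h7, Finset.sum_add_distrib, ← Finset.mul_sum, ← Finset.mul_sum,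
        hz1, hz2, mul_zero, mul_zero, add_zero]
    exact (mul_eq_zero.1 h6).resolve_left hci

end

end Vale.Agent.P292
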